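import Mathlib

/-!
Row 69 (S0092), node RED: basic definitions (group structure on `Ω ≃ᵐ Ω`, mixing, mixing of all
orders along integer sequences) and the reduction of `S0092` to standard Borel systems.
-/

set_option autoImplicit false
set_option linter.unusedSectionVars false

open MeasureTheory Filter Set
open scoped Topology ENNReal

noncomputable section
namespace Crest.Agent.R69

/-! ### the group of measurable automorphisms -/

section grp
variable {Ω : Type*} [MeasurableSpace Ω]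

instance instGroupMEquiv : Group (Ω ≃ᵐ Ω) where
  mul f g := g.trans f
  one := MeasurableEquiv.refl Ω
  inv f := f.symm
  mul_assoc _ _ _ := rfl
  one_mul _ := rfl
  mul_one _ := rfl
  inv_mul_cancel f := by
    apply MeasurableEquiv.ext
    funext x
    exact f.symm_apply_apply x

theorem me_mul_apply (f g : Ω ≃ᵐ Ω) (x : Ω) : (f * g) x = f (g x) := rfl
theorem me_one_apply (x : Ω) : (1 : Ω ≃ᵐ Ω) x = x := rfl
theorem me_inv_apply_self (f : Ω ≃ᵐ Ω) (x : Ω) : f⁻¹ (f x) = x := f.symm_apply_apply x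
theorem me_apply_inv_self (f : Ω ≃ᵐ Ω) (x : Ω) : f (f⁻¹ x) = x := f.apply_symm_apply x

theorem me_pow_coe (T : Ω ≃ᵐ Ω) (n : ℕ) : ((T ^ n : Ω ≃ᵐ Ω) : Ω → Ω) = T^[n] := by
  induction n with
  | zero => rfl
  | succ n ih =>
    funext x
    rw [pow_succ, me_mul_apply, ih, Function.iterate_succ_apply]

theorem me_pow_apply (T : Ω ≃ᵐ Ω) (n : ℕ) (x : Ω) : (T ^ n) x = T^[n] x := by
  rw [me_pow_coe]

theorem me_zpow_add (T : Ω ≃ᵐ Ω) (m n : ℤ) (x : Ω) : (T ^ (m + n)) x = (T ^ m) ((T ^ n) x) := by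
  rw [zpow_add, me_mul_apply]

theorem mp_inv {μ : Measure Ω} {T : Ω ≃ᵐ Ω} (h : MeasurePreserving T μ μ) :
    MeasurePreserving (T⁻¹ : Ω ≃ᵐ Ω) μ μ := MeasurePreserving.symm T h

theorem mp_pow {μ : Measure Ω} {T : Ω ≃ᵐ Ω} (h : MeasurePreserving T μ μ) (n : ℕ) :
    MeasurePreserving (T ^ n : Ω ≃ᵐ Ω) μ μ := by
  rw [me_pow_coe]
  exact h.iterate n

theorem mp_zpow {μ : Measure Ω} {T : Ω ≃ᵐ Ω} (h : MeasurePreserving T μ μ) (n : ℤ) :
    MeasurePreserving (T ^ n : Ω ≃ᵐ Ω) μ μ := by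
  cases n with
  | ofNat n =>
    rw [Int.ofNat_eq_natCast, zpow_natCast]
    exact mp_pow h n
  | negSucc n =>
    rw [zpow_negSucc]
    exact mp_inv (mp_pow h (n + 1))

end grp

/-! ### mixing -/

/-- mixing -/
def Mix {Ω : Type*} [MeasurableSpace Ω] (μ : Measure Ω) (T : Ω ≃ᵐ Ω) : Prop :=
  ∀ A B : Set Ω, MeasurableSet A → MeasurableSet B →
    Tendsto (fun n : ℕ => μ (A ∩ (T^[n]) ⁻¹' B)) atTop (nhds (μ A * μ B))

/-- mixing of order `r` (`r` sites), along integer sequences whose pairwise differences tend to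
infinity in absolute value -/
def MixR {Ω : Type*} [MeasurableSpace Ω] (μ : Measure Ω) (T : Ω ≃ᵐ Ω) (r : ℕ) : Prop :=
  ∀ s : Fin r → ℕ → ℤ, (∀ i j, i ≠ j → Tendsto (fun k => s i k - s j k) atTop cofinite) →
    ∀ f : Fin r → Ω → ℝ, (∀ i, Measurable (f i)) → (∀ i, ∃ C : ℝ, ∀ x, |f i x| ≤ C) →
      Tendsto (fun k => ∫ x, ∏ i, f i ((T ^ (s i k) : Ω ≃ᵐ Ω) x) ∂μ) atTop
        (𝓝 (∏ i, ∫ x, f i x ∂μ))

/-- mixing of all orders -/
def MixAll {Ω : Type*} [MeasurableSpace Ω] (μ : Measure Ω) (T : Ω ≃ᵐ Ω) : Prop :=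
  ∀ r, MixR μ T r

/-! ### factor maps -/

section fac
variable {Ω Γ : Type*} [MeasurableSpace Ω] [MeasurableSpace Γ]

theorem semi_inv {T : Ω ≃ᵐ Ω} {S : Γ ≃ᵐ Γ} {π : Ω → Γ} (h : ∀ x, π (T x) = S (π x)) (x : Ω) :
    π ((T⁻¹ : Ω ≃ᵐ Ω) x) = (S⁻¹ : Γ ≃ᵐ Γ) (π x) := by
  have h1 := h ((T⁻¹ : Ω ≃ᵐ Ω) x)
  rw [me_apply_inv_self] at h1
  rw [h1, me_inv_apply_self]

theorem semi_pow {T : Ω ≃ᵐ Ω} {S : Γ ≃ᵐ Γ} {π : Ω → Γ} (h : ∀ x, π (T x) = S (π x)) (n : ℕ)
    (x : Ω) : π ((T ^ n : Ω ≃ᵐ Ω) x) = (S ^ n : Γ ≃ᵐ Γ) (π x) := by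
  induction n generalizing x with
  | zero => rfl
  | succ n ih => rw [pow_succ, pow_succ, me_mul_apply, me_mul_apply, ih, h]

theorem semi_zpow {T : Ω ≃ᵐ Ω} {S : Γ ≃ᵐ Γ} {π : Ω → Γ} (h : ∀ x, π (T x) = S (π x)) (n : ℤ)
    (x : Ω) : π ((T ^ n : Ω ≃ᵐ Ω) x) = (S ^ n : Γ ≃ᵐ Γ) (π x) := by
  cases n with
  | ofNat n =>
    rw [Int.ofNat_eq_natCast, zpow_natCast, zpow_natCast]
    exact semi_pow h n x
  | negSucc n =>
    rw [zpow_negSucc, zpow_negSucc]
    exact semi_inv (semi_pow h (n + 1)) x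

theorem map_mp {μ : Measure Ω} {T : Ω ≃ᵐ Ω} {S : Γ ≃ᵐ Γ} {π : Ω → Γ} (hπ : Measurable π)
    (h : ∀ x, π (T x) = S (π x)) (hT : MeasurePreserving T μ μ) :
    MeasurePreserving S (μ.map π) (μ.map π) := by
  refine ⟨S.measurable, ?_⟩
  rw [Measure.map_map S.measurable hπ]
  have : (S ∘ π) = π ∘ T := by
    funext x
    exact (h x).symm
  rw [this, ← Measure.map_map hπ T.measurable, hT.map_eq]

theorem map_mix {μ : Measure Ω} {T : Ω ≃ᵐ Ω} {S : Γ ≃ᵐ Γ} {π : Ω → Γ} (hπ : Measurable π)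
    (h : ∀ x, π (T x) = S (π x)) (hm : Mix μ T) : Mix (μ.map π) S := by
  intro A B hA hB
  have h1 := hm _ _ (hπ hA) (hπ hB)
  rw [Measure.map_apply hπ hA, Measure.map_apply hπ hB]
  refine h1.congr fun n => ?_
  rw [← me_pow_coe, ← me_pow_coe, Measure.map_apply hπ (hA.inter ((S ^ n : Γ ≃ᵐ Γ).measurable hB))]
  congr 1
  ext x
  simp only [mem_inter_iff, mem_preimage, semi_pow h]

end fac

/-! ### the shift -/

section shift
variable {β : Type*} [MeasurableSpace β]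

/-- the shift on `ℤ → β` -/
def shiftE (β : Type*) [MeasurableSpace β] : (ℤ → β) ≃ᵐ (ℤ → β) where
  toFun γ n := γ (n + 1)
  invFun γ n := γ (n - 1)
  left_inv γ := by funext n; simp
  right_inv γ := by funext n; simp
  measurable_toFun := measurable_pi_lambda _ fun n => measurable_pi_apply _
  measurable_invFun := measurable_pi_lambda _ fun n => measurable_pi_apply _

theorem shiftE_apply (γ : ℤ → β) (n : ℤ) : shiftE β γ n = γ (n + 1) := rfl

theorem shiftE_pow (m : ℕ) (γ : ℤ → β) (n : ℤ) : (shiftE β ^ m : _ ≃ᵐ _) γ n = γ (n + m) := by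
  induction m generalizing γ with
  | zero => simp [me_one_apply]
  | succ m ih =>
    rw [pow_succ, me_mul_apply, ih, shiftE_apply]
    push_cast
    ring_nf

theorem shiftE_zpow (m : ℤ) (γ : ℤ → β) (n : ℤ) : (shiftE β ^ m : _ ≃ᵐ _) γ n = γ (n + m) := by
  cases m with
  | ofNat m =>
    rw [Int.ofNat_eq_natCast, zpow_natCast, shiftE_pow]
  | negSucc m =>
    have h1 : (shiftE β ^ (m + 1) : _ ≃ᵐ _) ((shiftE β ^ (Int.negSucc m) : _ ≃ᵐ _) γ) = γ := by
      rw [zpow_negSucc, me_apply_inv_self]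
    have h2 := congrFun h1 (n + Int.negSucc m)
    rw [shiftE_pow] at h2
    rw [← h2]
    have h3 : n + Int.negSucc m + ((m + 1 : ℕ) : ℤ) = n := by
      rw [Int.negSucc_eq]
      push_cast
      ring
    rw [h3]

end shift

/-! ### two sites: weak mixing form on `L²` -/

section two
variable {Ω : Type*} [MeasurableSpace Ω] {μ : Measure Ω} {T : Ω ≃ᵐ Ω}

theorem measure_inter_zpow_neg (hT : MeasurePreserving T μ μ) {A B : Set Ω} (hA : MeasurableSet A)
    (hB : MeasurableSet B) (n : ℤ) :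
    μ (A ∩ (T ^ (-n) : Ω ≃ᵐ Ω) ⁻¹' B) = μ (B ∩ (T ^ n : Ω ≃ᵐ Ω) ⁻¹' A) := by
  have h1 := (mp_zpow hT n).measure_preimage
    (hA.inter ((T ^ (-n) : Ω ≃ᵐ Ω).measurable hB)).nullMeasurableSet
  rw [← h1]
  congr 1
  ext x
  simp only [mem_preimage, mem_inter_iff]
  have h2 : (T ^ (-n) : Ω ≃ᵐ Ω) ((T ^ n : Ω ≃ᵐ Ω) x) = x := by
    rw [← me_zpow_add]
    simp [me_one_apply]
  rw [h2]
  exact and_comm

/-- mixing at integer times -/
theorem Mix.zpow (h : Mix μ T) (hT : MeasurePreserving T μ μ) {A B : Set Ω}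
    (hA : MeasurableSet A) (hB : MeasurableSet B) :
    Tendsto (fun n : ℤ => μ (A ∩ (T ^ n : Ω ≃ᵐ Ω) ⁻¹' B)) cofinite (𝓝 (μ A * μ B)) := by
  rw [Int.cofinite_eq, tendsto_sup]
  constructor
  · have h1 : Tendsto (fun n : ℤ => n.natAbs) atBot atTop := tendsto_atTop.2 fun b => by
      filter_upwards [eventually_le_atBot (-(b : ℤ))] with n hn
      omega
    have h2 := (h B A hB hA).comp h1
    rw [mul_comm (μ B)] at h2
    refine h2.congr' ?_
    filter_upwards [eventually_le_atBot (0 : ℤ)] with n hn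
    show μ (B ∩ T^[n.natAbs] ⁻¹' A) = _
    have h3 : n = -(n.natAbs : ℤ) := by omega
    conv_rhs => rw [h3]
    rw [measure_inter_zpow_neg hT hA hB, zpow_natCast, me_pow_coe]
  · have h1 : Tendsto (fun n : ℤ => n.natAbs) atTop atTop := tendsto_atTop.2 fun b => by
      filter_upwards [eventually_ge_atTop (b : ℤ)] with n hn
      omega
    have h2 := (h A B hA hB).comp h1
    refine h2.congr' ?_
    filter_upwards [eventually_ge_atTop (0 : ℤ)] with n hn
    show μ (A ∩ T^[n.natAbs] ⁻¹' B) = _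
    have h3 : n = (n.natAbs : ℤ) := by omega
    conv_rhs => rw [h3]
    rw [zpow_natCast, me_pow_coe]

/-- the set where equi-Lipschitz maps converge is closed -/
theorem isClosed_tendsto {E ι : Type*} [SeminormedAddCommGroup E] (l : Filter ι)
    (B : ι → E → ℝ) (L : E → ℝ) (C : ℝ) (hB : ∀ n x y, |B n x - B n y| ≤ C * ‖x - y‖)
    (hL : ∀ x y, |L x - L y| ≤ C * ‖x - y‖) :
    IsClosed {x : E | Tendsto (fun n => B n x) l (𝓝 (L x))} := by
  rw [← isSeqClosed_iff_isClosed]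
  intro y x hy hyx
  show Tendsto (fun n => B n x) l (𝓝 (L x))
  rw [Metric.tendsto_nhds]
  intro ε hε
  have h1 : Tendsto (fun j => C * ‖x - y j‖) atTop (𝓝 0) := by
    have h2 : Tendsto (fun j => ‖x - y j‖) atTop (𝓝 0) := by
      have h3 := (tendsto_const_nhds (x := x)).sub hyx
      simpa using h3.norm
    simpa using h2.const_mul C
  obtain ⟨j, hj⟩ := (h1.eventually (gt_mem_nhds (show (0 : ℝ) < ε / 3 by positivity))).exists
  have h2 := (Metric.tendsto_nhds.1 (hy j)) (ε / 3) (by positivity)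
  filter_upwards [h2] with n hn
  rw [Real.dist_eq] at hn ⊢
  have h3 := hB n x (y j)
  have h4 := hL x (y j)
  have e : B n x - L x = (B n x - B n (y j)) + (B n (y j) - L (y j)) - (L x - L (y j)) := by ring
  rw [e]
  calc _ ≤ |(B n x - B n (y j)) + (B n (y j) - L (y j))| + |L x - L (y j)| := abs_sub _ _
    _ ≤ |B n x - B n (y j)| + |B n (y j) - L (y j)| + |L x - L (y j)| := by
        gcongr
        exact abs_add_le _ _
    _ < ε := by linarith

theorem memLp_comp_zpow (hT : MeasurePreserving T μ μ) {g : Ω → ℝ} (hg : MemLp g 2 μ) (n : ℤ) :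
    MemLp (fun x => g ((T ^ n : Ω ≃ᵐ Ω) x)) 2 μ := hg.comp_measurePreserving (mp_zpow hT n)

theorem eLpNorm_comp_zpow (hT : MeasurePreserving T μ μ) {g : Ω → ℝ} (hg : MemLp g 2 μ) (n : ℤ) :
    eLpNorm (fun x => g ((T ^ n : Ω ≃ᵐ Ω) x)) 2 μ = eLpNorm g 2 μ :=
  eLpNorm_comp_measurePreserving hg.1 (mp_zpow hT n)

theorem abs_int_mul_le {f g : Ω → ℝ} (hf : MemLp f 2 μ) (hg : MemLp g 2 μ) :
    |∫ x, f x * g x ∂μ| ≤ (eLpNorm f 2 μ).toReal * (eLpNorm g 2 μ).toReal := by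
  have h1 : ∫ x, f x * g x ∂μ = inner ℝ (hg.toLp g) (hf.toLp f) := by
    rw [L2.inner_def]
    refine integral_congr_ae ?_
    filter_upwards [hf.coeFn_toLp, hg.coeFn_toLp] with x h2 h3
    rw [h2, h3]
    simp
  rw [h1]
  refine (abs_real_inner_le_norm _ _).trans (le_of_eq ?_)
  rw [Lp.norm_toLp, Lp.norm_toLp, mul_comm]

/-- mixing in the weak form on `L²` -/
theorem Mix.tendsto_L2 [IsProbabilityMeasure μ] (h : Mix μ T) (hT : MeasurePreserving T μ μ)
    {f g : Ω → ℝ} (hf : MemLp f 2 μ) (hg : MemLp g 2 μ) :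
    Tendsto (fun n : ℤ => ∫ x, f x * g ((T ^ n : Ω ≃ᵐ Ω) x) ∂μ) cofinite
      (𝓝 ((∫ x, f x ∂μ) * ∫ x, g x ∂μ)) := by
  have hint : ∀ {f : Ω → ℝ}, MemLp f 2 μ → Integrable f μ := fun hf =>
    hf.integrable one_le_two
  have hmul : ∀ {f g : Ω → ℝ}, MemLp f 2 μ → MemLp g 2 μ → Integrable (fun x => f x * g x) μ :=
    fun hf hg => hf.integrable_mul hg
  have h1mem : MemLp (fun _ : Ω => (1 : ℝ)) 2 μ := memLp_const 1
  have habs1 : ∀ {f : Ω → ℝ}, MemLp f 2 μ → |∫ x, f x ∂μ| ≤ (eLpNorm f 2 μ).toReal := fun hf => by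
    have h2 := abs_int_mul_le hf h1mem
    have h3 : (eLpNorm (fun _ : Ω => (1 : ℝ)) 2 μ).toReal = 1 := by
      rw [eLpNorm_const _ two_ne_zero (IsProbabilityMeasure.ne_zero μ)]
      simp
    simpa [h3] using h2
  -- general closedness
  have hclos : ∀ (f : Ω → ℝ), MemLp f 2 μ → IsClosed {g : Lp ℝ 2 μ |
      Tendsto (fun n : ℤ => ∫ x, f x * g ((T ^ n : Ω ≃ᵐ Ω) x) ∂μ) cofinite
        (𝓝 ((∫ x, f x ∂μ) * ∫ x, g x ∂μ))} := by
    intro f hf
    have hsub : ∀ g g' : Lp ℝ 2 μ, (eLpNorm (fun x => g x - g' x) 2 μ).toReal = ‖g - g'‖ := by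
      intro g g'
      rw [Lp.norm_def]
      congr 1
      refine eLpNorm_congr_ae ?_
      filter_upwards [Lp.coeFn_sub g g'] with x hx
      rw [hx]; rfl
    refine isClosed_tendsto cofinite (fun (n : ℤ) (g : Lp ℝ 2 μ) =>
      ∫ x, f x * g ((T ^ n : Ω ≃ᵐ Ω) x) ∂μ)
      (fun g => (∫ x, f x ∂μ) * ∫ x, g x ∂μ) ((eLpNorm f 2 μ).toReal) ?_ ?_
    · intro n g g'
      have hg := Lp.memLp g
      have hg' := Lp.memLp g'
      have e : (∫ x, f x * g ((T ^ n : Ω ≃ᵐ Ω) x) ∂μ) - ∫ x, f x * g' ((T ^ n : Ω ≃ᵐ Ω) x) ∂μ =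
          ∫ x, f x * (fun x => g x - g' x) ((T ^ n : Ω ≃ᵐ Ω) x) ∂μ := by
        rw [← integral_sub (hmul hf (memLp_comp_zpow hT hg n))
          (hmul hf (memLp_comp_zpow hT hg' n))]
        congr 1; funext x; ring
      rw [e]
      refine (abs_int_mul_le hf (memLp_comp_zpow hT (hg.sub hg') n)).trans (le_of_eq ?_)
      rw [← hsub g g']
      congr 2
      exact eLpNorm_comp_zpow hT (hg.sub hg') n
    · intro g g'
      have hg := Lp.memLp g
      have hg' := Lp.memLp g'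
      rw [← mul_sub, ← integral_sub (hint hg) (hint hg'), abs_mul]
      refine mul_le_mul (habs1 hf) ?_ (abs_nonneg _) ENNReal.toReal_nonneg
      rw [← hsub g g']
      exact habs1 (hg.sub hg')
  -- indicators
  have key : ∀ (c : ℝ) {A : Set Ω}, MeasurableSet A → ∀ (d : ℝ) {B : Set Ω}, MeasurableSet B →
      Tendsto (fun n : ℤ => ∫ x, (A.indicator fun _ => c) x *
        (B.indicator fun _ => d) ((T ^ n : Ω ≃ᵐ Ω) x) ∂μ) cofinite
      (𝓝 ((∫ x, (A.indicator fun _ => c) x ∂μ) * ∫ x, (B.indicator fun _ => d) x ∂μ)) := by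
    intro c A hA d B hB
    have h2 := h.zpow hT hA hB
    have h3 : Tendsto (fun n : ℤ => c * d * μ.real (A ∩ (T ^ n : Ω ≃ᵐ Ω) ⁻¹' B)) cofinite
        (𝓝 (c * d * (μ.real A * μ.real B))) := by
      refine Tendsto.const_mul _ ?_
      have h4 := (ENNReal.tendsto_toReal (ENNReal.mul_ne_top (measure_ne_top μ A)
        (measure_ne_top μ B))).comp h2
      rw [ENNReal.toReal_mul] at h4
      exact h4
    rw [integral_indicator hA, integral_indicator hB, setIntegral_const, setIntegral_const]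
    have e0 : (μ.real A • c) * (μ.real B • d) = c * d * (μ.real A * μ.real B) := by
      simp only [smul_eq_mul]; ring
    rw [e0]
    refine h3.congr fun n => ?_
    have hAB : MeasurableSet (A ∩ (T ^ n : Ω ≃ᵐ Ω) ⁻¹' B) :=
      hA.inter ((T ^ n : Ω ≃ᵐ Ω).measurable hB)
    have e1 : ∀ x, (A.indicator fun _ => c) x * (B.indicator fun _ => d) ((T ^ n : Ω ≃ᵐ Ω) x) =
        (A ∩ (T ^ n : Ω ≃ᵐ Ω) ⁻¹' B).indicator (fun _ => c * d) x := fun x => by
      by_cases h5 : x ∈ A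
      · by_cases h6 : (T ^ n : Ω ≃ᵐ Ω) x ∈ B
        · have h7 : x ∈ A ∩ (T ^ n : Ω ≃ᵐ Ω) ⁻¹' B := ⟨h5, h6⟩
          rw [indicator_of_mem h5, indicator_of_mem h6, indicator_of_mem h7]
        · have h7 : x ∉ A ∩ (T ^ n : Ω ≃ᵐ Ω) ⁻¹' B := fun h8 => h6 h8.2
          rw [indicator_of_notMem h6, indicator_of_notMem h7, mul_zero]
      · have h7 : x ∉ A ∩ (T ^ n : Ω ≃ᵐ Ω) ⁻¹' B := fun h8 => h5 h8.1
        rw [indicator_of_notMem h5, indicator_of_notMem h7, zero_mul]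
    simp_rw [e1]
    rw [integral_indicator hAB, setIntegral_const, smul_eq_mul, mul_comm]
  -- fix an indicator on the left
  have step1 : ∀ (c : ℝ) {A : Set Ω}, MeasurableSet A → ∀ {g : Ω → ℝ}, MemLp g 2 μ →
      Tendsto (fun n : ℤ => ∫ x, (A.indicator fun _ => c) x * g ((T ^ n : Ω ≃ᵐ Ω) x) ∂μ) cofinite
      (𝓝 ((∫ x, (A.indicator fun _ => c) x ∂μ) * ∫ x, g x ∂μ)) := by
    intro c A hA g hg
    have hfA : MemLp (A.indicator fun _ => c) 2 μ := (memLp_const c).indicator hA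
    refine MemLp.induction (μ := μ) (p := 2) (by norm_num) (motive := fun g : Ω → ℝ =>
      Tendsto (fun n : ℤ => ∫ x, (A.indicator fun _ => c) x * g ((T ^ n : Ω ≃ᵐ Ω) x) ∂μ) cofinite
      (𝓝 ((∫ x, (A.indicator fun _ => c) x ∂μ) * ∫ x, g x ∂μ))) (fun d B hB _ => key c hA d hB)
      ?_ (hclos _ hfA) ?_ hg
    · intro g g' _ hg hg' h3 h4
      have h5 := h3.add h4
      rw [← mul_add, ← integral_add (hint hg) (hint hg')] at h5
      refine h5.congr fun n => ?_
      rw [← integral_add (hmul hfA (memLp_comp_zpow hT hg n))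
        (hmul hfA (memLp_comp_zpow hT hg' n))]
      congr 1; funext x
      simp only [Pi.add_apply]
      ring
    · intro g g' hgg' hg h3
      rw [integral_congr_ae hgg'] at h3
      refine h3.congr fun n => integral_congr_ae ?_
      filter_upwards [(mp_zpow hT n).quasiMeasurePreserving.ae hgg'] with x hx
      rw [hx]
  -- symmetric closedness in the left variable
  have hclosL : IsClosed {f : Lp ℝ 2 μ |
      Tendsto (fun n : ℤ => ∫ x, f x * g ((T ^ n : Ω ≃ᵐ Ω) x) ∂μ) cofinite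
        (𝓝 ((∫ x, f x ∂μ) * ∫ x, g x ∂μ))} := by
    have hsub : ∀ g g' : Lp ℝ 2 μ, (eLpNorm (fun x => g x - g' x) 2 μ).toReal = ‖g - g'‖ := by
      intro g g'
      rw [Lp.norm_def]
      congr 1
      refine eLpNorm_congr_ae ?_
      filter_upwards [Lp.coeFn_sub g g'] with x hx
      rw [hx]; rfl
    refine isClosed_tendsto cofinite (fun (n : ℤ) (f : Lp ℝ 2 μ) =>
      ∫ x, f x * g ((T ^ n : Ω ≃ᵐ Ω) x) ∂μ)
      (fun f => (∫ x, f x ∂μ) * ∫ x, g x ∂μ) ((eLpNorm g 2 μ).toReal) ?_ ?_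
    · intro n f f'
      have hf := Lp.memLp f
      have hf' := Lp.memLp f'
      have e : (∫ x, f x * g ((T ^ n : Ω ≃ᵐ Ω) x) ∂μ) - ∫ x, f' x * g ((T ^ n : Ω ≃ᵐ Ω) x) ∂μ =
          ∫ x, (fun x => f x - f' x) x * g ((T ^ n : Ω ≃ᵐ Ω) x) ∂μ := by
        rw [← integral_sub (hmul hf (memLp_comp_zpow hT hg n))
          (hmul hf' (memLp_comp_zpow hT hg n))]
        congr 1; funext x; ring
      rw [e]
      refine (abs_int_mul_le (hf.sub hf') (memLp_comp_zpow hT hg n)).trans (le_of_eq ?_)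
      rw [← hsub f f', mul_comm, eLpNorm_comp_zpow hT hg n]
      rfl
    · intro f f'
      have hf := Lp.memLp f
      have hf' := Lp.memLp f'
      rw [← sub_mul, ← integral_sub (hint hf) (hint hf'), abs_mul, mul_comm]
      refine mul_le_mul (habs1 hg) ?_ (abs_nonneg _) ENNReal.toReal_nonneg
      rw [← hsub f f']
      exact habs1 (hf.sub hf')
  refine MemLp.induction (μ := μ) (p := 2) (by norm_num) (motive := fun f : Ω → ℝ =>
    Tendsto (fun n : ℤ => ∫ x, f x * g ((T ^ n : Ω ≃ᵐ Ω) x) ∂μ) cofinite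
      (𝓝 ((∫ x, f x ∂μ) * ∫ x, g x ∂μ))) (fun c A hA _ => step1 c hA hg)
      ?_ hclosL ?_ hf
  · intro f f' _ hf hf' h3 h4
    have h5 := h3.add h4
    rw [← add_mul, ← integral_add (hint hf) (hint hf')] at h5
    refine h5.congr fun n => ?_
    rw [← integral_add (hmul hf (memLp_comp_zpow hT hg n))
      (hmul hf' (memLp_comp_zpow hT hg n))]
    congr 1; funext x
    simp only [Pi.add_apply]
    ring
  · intro f f' hff' hf h3
    rw [integral_congr_ae hff'] at h3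
    refine h3.congr fun n => integral_congr_ae ?_
    filter_upwards [hff'] with x hx
    rw [hx]

end two

/-! ### the reduction -/

/-- `S0092` follows from the statement for standard Borel systems -/
theorem S0092_of
    (H : ∀ (Γ : Type) [MeasurableSpace Γ] [StandardBorelSpace Γ] (ν : Measure Γ)
      [IsProbabilityMeasure ν] (S : Γ ≃ᵐ Γ), MeasurePreserving S ν ν → Mix ν S → MixAll ν S)
    {Ω : Type*} [MeasurableSpace Ω] (μ : Measure Ω) [IsProbabilityMeasure μ]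
    (T : Ω ≃ᵐ Ω) (hT : MeasurePreserving T μ μ)
    (hmix : ∀ A B : Set Ω, MeasurableSet A → MeasurableSet B →
      Tendsto (fun n : ℕ => μ (A ∩ (T^[n]) ⁻¹' B)) atTop (nhds (μ A * μ B)))
    (k : ℕ) (A : Fin (k + 1) → Set Ω) (hA : ∀ i, MeasurableSet (A i)) :
    Tendsto (fun n : Fin k → ℕ =>
        μ (⋂ i : Fin (k + 1), (T^[∑ j : Fin k, if (j : ℕ) < (i : ℕ) then n j else 0]) ⁻¹' A i))
      atTop (nhds (∏ i, μ (A i))) := by
  classical
  set Γ := (ℤ → (Fin (k + 1) → Bool)) with hΓ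
  let π : Ω → Γ := fun x n i => decide ((T ^ n : Ω ≃ᵐ Ω) x ∈ A i)
  have hπ : Measurable π := by
    refine measurable_pi_lambda _ fun n => measurable_pi_lambda _ fun i => ?_
    refine measurable_to_bool ?_
    have : (fun x => decide ((T ^ n : Ω ≃ᵐ Ω) x ∈ A i)) ⁻¹' {true} = (T ^ n : Ω ≃ᵐ Ω) ⁻¹' A i := by
      ext x
      simp
    rw [this]
    exact (T ^ n : Ω ≃ᵐ Ω).measurable (hA i)
  have hsemi : ∀ x, π (T x) = shiftE _ (π x) := fun x => by
    funext n i
    show decide ((T ^ n : Ω ≃ᵐ Ω) (T x) ∈ A i) = decide ((T ^ (n + 1) : Ω ≃ᵐ Ω) x ∈ A i)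
    rw [me_zpow_add, zpow_one]
  have : IsProbabilityMeasure (μ.map π) := Measure.isProbabilityMeasure_map hπ.aemeasurable
  have hall := H Γ (μ.map π) (shiftE _) (map_mp hπ hsemi hT) (map_mix hπ hsemi hmix) (k + 1)
  refine tendsto_of_seq_tendsto fun n hn => ?_
  have hn' : ∀ j, Tendsto (fun m => n m j) atTop atTop := fun j => by
    refine tendsto_atTop.2 fun b => ?_
    filter_upwards [(tendsto_atTop.1 hn) (fun _ => b)] with m hm using hm j
  -- the times
  let t : ℕ → Fin (k + 1) → ℕ := fun m i => ∑ j : Fin k, if (j : ℕ) < (i : ℕ) then n m j else 0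
  have ht : ∀ i i' : Fin (k + 1), i < i' → Tendsto (fun m => (t m i' : ℤ) - t m i) atTop atTop := by
    intro i i' hii
    have hik : (i : ℕ) < k := by
      have h1 : (i : ℕ) < (i' : ℕ) := hii
      have h2 := i'.2
      omega
    have h3 : ∀ m, (n m ⟨i, hik⟩ : ℤ) ≤ (t m i' : ℤ) - t m i := fun m => by
      have h4 : t m i + n m ⟨i, hik⟩ ≤ t m i' := by
        have h5 : n m ⟨i, hik⟩ = ∑ j : Fin k, if j = (⟨i, hik⟩ : Fin k) then n m j else 0 := by
          rw [Finset.sum_ite_eq' Finset.univ]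
          simp
        show (∑ j : Fin k, if (j : ℕ) < (i : ℕ) then n m j else 0) + n m ⟨i, hik⟩ ≤
          ∑ j : Fin k, if (j : ℕ) < (i' : ℕ) then n m j else 0
        rw [h5, ← Finset.sum_add_distrib]
        refine Finset.sum_le_sum fun j _ => ?_
        have h6 : (i : ℕ) < (i' : ℕ) := hii
        by_cases hj : j = (⟨i, hik⟩ : Fin k)
        · have h7 : (j : ℕ) = i := by rw [hj]
          rw [if_pos hj, if_neg (by omega), if_pos (by omega), zero_add]
        · rw [if_neg hj, add_zero]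
          by_cases h8 : (j : ℕ) < i
          · rw [if_pos h8, if_pos (by omega)]
          · rw [if_neg h8]
            exact Nat.zero_le _
      have : (t m i : ℤ) + n m ⟨i, hik⟩ ≤ t m i' := by exact_mod_cast h4
      linarith
    refine tendsto_atTop_mono h3 ?_
    exact tendsto_natCast_atTop_atTop.comp (hn' _)
  have hfar : ∀ i j : Fin (k + 1), i ≠ j →
      Tendsto (fun m => (t m i : ℤ) - t m j) atTop cofinite := by
    intro i j hij
    rw [Int.cofinite_eq]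
    rcases lt_or_gt_of_ne hij with h | h
    · have h1 := tendsto_neg_atTop_atBot.comp (ht i j h)
      refine (h1.congr fun m => ?_).mono_right le_sup_left
      simp
    · exact (ht j i h).mono_right le_sup_right
  have hC : ∀ i : Fin (k + 1), MeasurableSet {γ : Γ | γ 0 i = true} := fun i => by
    have h1 : Measurable fun γ : Γ => γ 0 i := (measurable_pi_apply i).comp (measurable_pi_apply 0)
    exact h1 (measurableSet_singleton true)
  have hAC : ∀ i, π ⁻¹' {γ : Γ | γ 0 i = true} = A i := fun i => by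
    ext x
    show decide ((T ^ (0 : ℤ) : Ω ≃ᵐ Ω) x ∈ A i) = true ↔ x ∈ A i
    rw [zpow_zero, me_one_apply]
    simp
  have key := hall (fun i m => (t m i : ℤ)) hfar
    (fun i => indicator {γ : Γ | γ 0 i = true} (fun _ => (1 : ℝ)))
    (fun i => measurable_const.indicator (hC i)) (fun i => ⟨1, fun γ => by
      by_cases h : γ ∈ {γ : Γ | γ 0 i = true}
      · rw [indicator_of_mem h]; simp
      · rw [indicator_of_notMem h]; simp⟩)
  have e1 : ∀ i, ∫ γ, indicator {γ : Γ | γ 0 i = true} (fun _ => (1 : ℝ)) γ ∂(μ.map π) =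
      μ.real (A i) := fun i => by
    rw [integral_indicator (hC i), setIntegral_const, smul_eq_mul, mul_one, Measure.real,
      Measure.map_apply hπ (hC i), hAC i]
    rfl
  have e2 : ∀ m, ∫ γ, ∏ i, indicator {γ : Γ | γ 0 i = true} (fun _ => (1 : ℝ))
      ((shiftE _ ^ (t m i : ℤ) : _ ≃ᵐ _) γ) ∂(μ.map π) =
      μ.real (⋂ i : Fin (k + 1), (T^[t m i]) ⁻¹' A i) := fun m => by
    have hm : Measurable fun γ : Γ => ∏ i, indicator {γ : Γ | γ 0 i = true} (fun _ => (1 : ℝ))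
        ((shiftE _ ^ (t m i : ℤ) : _ ≃ᵐ _) γ) :=
      Finset.measurable_fun_prod _ fun i _ =>
        (measurable_const.indicator (hC i)).comp (shiftE _ ^ (t m i : ℤ) : _ ≃ᵐ _).measurable
    rw [integral_map hπ.aemeasurable hm.aestronglyMeasurable]
    have h1 : ∀ x, ∏ i, indicator {γ : Γ | γ 0 i = true} (fun _ => (1 : ℝ))
        ((shiftE _ ^ (t m i : ℤ) : _ ≃ᵐ _) (π x)) =
        indicator (⋂ i : Fin (k + 1), (T^[t m i]) ⁻¹' A i) (fun _ => (1 : ℝ)) x := fun x => by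
      have h2 : ∀ i, (indicator {γ : Γ | γ 0 i = true} (fun _ => (1 : ℝ))
          ((shiftE _ ^ (t m i : ℤ) : _ ≃ᵐ _) (π x)) = if T^[t m i] x ∈ A i then 1 else 0) := by
        intro i
        rw [← semi_zpow hsemi, zpow_natCast, me_pow_apply]
        have h3 : (π (T^[t m i] x) ∈ {γ : Γ | γ 0 i = true}) ↔ T^[t m i] x ∈ A i := by
          rw [← hAC i]; rfl
        by_cases h4 : T^[t m i] x ∈ A i
        · rw [if_pos h4, indicator_of_mem (h3.2 h4)]
        · rw [if_neg h4, indicator_of_notMem (fun h5 => h4 (h3.1 h5))]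
      rw [Finset.prod_congr rfl fun i _ => h2 i]
      by_cases h5 : x ∈ ⋂ i : Fin (k + 1), (T^[t m i]) ⁻¹' A i
      · rw [indicator_of_mem h5]
        refine Finset.prod_eq_one fun i _ => if_pos ?_
        exact mem_iInter.1 h5 i
      · rw [indicator_of_notMem h5]
        simp only [mem_iInter, not_forall] at h5
        obtain ⟨i, hi⟩ := h5
        exact Finset.prod_eq_zero (Finset.mem_univ i) (if_neg hi)
    simp_rw [h1]
    have hmeas : MeasurableSet (⋂ i : Fin (k + 1), (T^[t m i]) ⁻¹' A i) :=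
      MeasurableSet.iInter fun i => (T.measurable.iterate _) (hA i)
    rw [integral_indicator hmeas, setIntegral_const, smul_eq_mul, mul_one]
  simp_rw [e1, e2] at key
  have h9 : Tendsto (fun m => ENNReal.ofReal (μ.real (⋂ i : Fin (k + 1), (T^[t m i]) ⁻¹' A i)))
      atTop (𝓝 (ENNReal.ofReal (∏ i, μ.real (A i)))) := ENNReal.tendsto_ofReal key
  rw [ENNReal.ofReal_prod_of_nonneg (fun i _ => measureReal_nonneg)] at h9
  have h10 : Tendsto (fun m => μ (⋂ i : Fin (k + 1), (T^[t m i]) ⁻¹' A i)) atTop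
      (𝓝 (∏ i, μ (A i))) := by
    simpa [Measure.real, ENNReal.ofReal_toReal (measure_ne_top μ _)] using h9
  exact h10

end Crest.Agent.R69
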