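import Crest.Agent.R69.Alg3

/-!
Row 69 (S0092), node (9b), part 4: commutative groups with an automorphism.
-/

set_option autoImplicit false

open Filter Polynomial LaurentPolynomial

namespace Crest.Agent.R69.Alg

/-- `Tors θ χ`: `χ` is killed by a product of elements `θ ^ r - 1`, `r ≥ 1`. -/
inductive Tors {Λ : Type*} [CommGroup Λ] (θ : MulAut Λ) : Λ → Prop
  | one : Tors θ 1
  | step (χ : Λ) (r : ℕ) (hr : 0 < r) (h : Tors θ ((θ ^ r) χ * χ⁻¹)) : Tors θ χ

variable {Λ : Type*} [CommGroup Λ]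

/-- the powers of `θ` as endomorphisms of `Additive Λ` -/
noncomputable def powEnd (θ : MulAut Λ) : Multiplicative ℤ →* AddMonoid.End (Additive Λ) where
  toFun n := MonoidHom.toAdditive ((θ ^ (Multiplicative.toAdd n) : MulAut Λ).toMonoidHom)
  map_one' := by
    ext x
    simp only [toAdd_one, zpow_zero]
    rfl
  map_mul' a b := by
    ext x
    simp only [toAdd_mul, zpow_add]
    rfl

/-- the ring morphism `ℤ[T;T⁻¹] → End Λ` -/
noncomputable def ringEnd (θ : MulAut Λ) : ℤ[T;T⁻¹] →+* AddMonoid.End (Additive Λ) :=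
  (AddMonoidAlgebra.lift ℤ (AddMonoid.End (Additive Λ)) ℤ (powEnd θ)).toRingHom

theorem ringEnd_T (θ : MulAut Λ) (n : ℤ) (x : Λ) :
    ringEnd θ (T n) (Additive.ofMul x) = Additive.ofMul ((θ ^ n) x) := by
  have : ringEnd θ (T n) = powEnd θ (Multiplicative.ofAdd n) := by
    have h := AddMonoidAlgebra.lift_single (powEnd θ) n (1 : ℤ)
    rw [one_smul] at h
    exact h
  rw [this]
  rfl

/-- **(9b), group form.** -/
theorem group_dominant (θ : MulAut Λ) {J : Type*} [Fintype J] (χ : J → Λ) {ι : Type*}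
    (U : Ultrafilter ι) (n : ι → J → ℤ)
    (hgap : ∀ i i', i ≠ i' → Tendsto (fun k => |n k i - n k i'|) U atTop)
    (hrel : ∀ᶠ k in (U : Filter ι), ∏ i, (θ ^ (n k i)) (χ i) = 1) :
    ∀ i, Tors θ (χ i) := by
  let _ : Module ℤ[T;T⁻¹] (Additive Λ) := Module.compHom (Additive Λ) (ringEnd θ)
  have hT : ∀ (n : ℤ) (x : Λ), (T n : ℤ[T;T⁻¹]) • (Additive.ofMul x) =
      Additive.ofMul ((θ ^ n) x) := fun n x => ringEnd_T θ n x
  have key := module_dominant (M := Additive Λ) (fun i => Additive.ofMul (χ i)) U n hgap (by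
    filter_upwards [hrel] with k hk
    simp_rw [hT]
    rw [← ofMul_prod, hk]
    rfl)
  have hS : ∀ s ∈ S, ∀ x : Λ, Tors θ (Additive.toMul (s • (Additive.ofMul x))) → Tors θ x := by
    intro s hs
    induction hs using Submonoid.closure_induction with
    | mem s hs =>
      obtain ⟨r, hr, rfl⟩ := hs
      intro x hx
      refine Tors.step x r hr ?_
      have e : ((T (r : ℤ) - 1 : ℤ[T;T⁻¹])) • (Additive.ofMul x) =
          Additive.ofMul ((θ ^ r) x * x⁻¹) := by
        rw [sub_smul, one_smul, hT, zpow_natCast, ← ofMul_div, div_eq_mul_inv]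
      rw [e] at hx
      exact hx
    | one =>
      intro x hx
      rw [one_smul] at hx
      exact hx
    | mul a b _ _ ha hb =>
      intro x hx
      rw [mul_smul] at hx
      exact hb x (ha (Additive.toMul (b • (Additive.ofMul x))) hx)
  intro i
  obtain ⟨s, hs, h⟩ := key i
  refine hS s hs (χ i) ?_
  rw [h]
  exact Tors.one

end Crest.Agent.R69.Alg
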