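import Mathlib

/-!
Row 69 (S0092), node (9b), part 1: the dominant term lemma.

`K` a field, `t ≠ 0` not a root of unity, finitely many coefficients `c i` and exponents `n k i`
whose pairwise differences tend to infinity along an ultrafilter: if `∑ i, t ^ n k i * c i = 0`
along the ultrafilter, then all `c i = 0`.
-/

set_option autoImplicit false

open Filter Polynomial

namespace Crest.Agent.R69.Alg

/-- dominant term, `1 < v t` -/
theorem dominant_of_one_lt {F : Type*} [Field F] (v : AbsoluteValue F ℝ) (t : F) (ht : 1 < v t)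
    {J : Type*} [Fintype J] (c : J → F) {ι : Type*} (U : Ultrafilter ι) (n : ι → J → ℤ)
    (hgap : ∀ i i', i ≠ i' → Tendsto (fun k => |n k i - n k i'|) U atTop)
    (hrel : ∀ᶠ k in (U : Filter ι), ∑ i, t ^ (n k i) * c i = 0) : ∀ i, c i = 0 := by
  classical
  have ht0 : t ≠ 0 := by
    rintro rfl
    simp at ht
    linarith
  by_contra hne
  push Not at hne
  obtain ⟨i₁, hi₁⟩ := hne
  set S : Finset J := Finset.univ.filter (fun i => c i ≠ 0) with hS
  have hSne : S.Nonempty := ⟨i₁, by simp [hS, hi₁]⟩
  -- the index of the maximal exponent is constant along U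
  have hmax : ∀ k, ∃ i ∈ S, ∀ i' ∈ S, n k i' ≤ n k i := fun k =>
    Finset.exists_max_image S (fun i => n k i) hSne
  have hev : ∀ᶠ k in (U : Filter ι), ∃ i ∈ S, ∀ i' ∈ S, n k i' ≤ n k i :=
    Eventually.of_forall hmax
  have : ∃ i ∈ S, ∀ᶠ k in (U : Filter ι), ∀ i' ∈ S, n k i' ≤ n k i := by
    have h2 : ∀ᶠ k in (U : Filter ι), k ∈ ⋃ i ∈ (S : Set J), {k | ∀ i' ∈ S, n k i' ≤ n k i} := by
      filter_upwards [hev] with k hk
      simpa using hk
    have h3 := (Ultrafilter.finite_biUnion_mem_iff (f := U) (S.finite_toSet)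
      (s := fun i => {k | ∀ i' ∈ S, n k i' ≤ n k i})).1 h2
    obtain ⟨i, hi, h⟩ := h3
    exact ⟨i, by simpa using hi, h⟩
  obtain ⟨i₀, hi₀, hmx⟩ := this
  have hc₀ : c i₀ ≠ 0 := by simpa [hS] using hi₀
  -- bound
  have hbd : ∀ᶠ k in (U : Filter ι), v (c i₀) ≤ ∑ i ∈ S.erase i₀,
      (v t) ^ (-|n k i₀ - n k i|) * v (c i) := by
    filter_upwards [hrel, hmx] with k hk hm
    have e1 : ∑ i ∈ S, t ^ (n k i) * c i = 0 := by
      rw [← hk]
      refine Finset.sum_subset (Finset.subset_univ S) ?_
      intro i _ hi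
      have : c i = 0 := by
        by_contra h
        exact hi (by simp [hS, h])
      simp [this]
    rw [← Finset.add_sum_erase S _ hi₀] at e1
    have e2 : t ^ (n k i₀) * c i₀ = -∑ i ∈ S.erase i₀, t ^ (n k i) * c i := by
      linear_combination e1
    have e3 : c i₀ = -∑ i ∈ S.erase i₀, t ^ (n k i - n k i₀) * c i := by
      have hz : t ^ (n k i₀) ≠ 0 := zpow_ne_zero _ ht0
      apply mul_left_cancel₀ hz
      rw [e2, mul_neg, Finset.mul_sum]
      congr 1
      refine Finset.sum_congr rfl fun i _ => ?_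
      rw [← mul_assoc, ← zpow_add₀ ht0]
      congr 2
      ring
    rw [e3, AbsoluteValue.map_neg]
    refine (v.sum_le _ _).trans ?_
    refine Finset.sum_le_sum fun i hi => ?_
    have hi' : i ∈ S := Finset.mem_of_mem_erase hi
    have hle := hm i hi'
    rw [map_mul, map_zpow₀, abs_of_nonneg (by linarith)]
    rw [neg_sub]
  have hlim : Tendsto (fun k => ∑ i ∈ S.erase i₀, (v t) ^ (-|n k i₀ - n k i|) * v (c i))
      (U : Filter ι) (nhds 0) := by
    have : (0 : ℝ) = ∑ i ∈ S.erase i₀, 0 * v (c i) := by simp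
    rw [this]
    refine tendsto_finsetSum _ fun i hi => ?_
    refine Tendsto.mul_const _ ?_
    have hne : i₀ ≠ i := (Finset.ne_of_mem_erase hi).symm
    have h1 := hgap i₀ i hne
    have h2 : Tendsto (fun m : ℤ => (v t) ^ (-m)) atTop (nhds 0) := by
      have h3 : Tendsto (fun m : ℕ => ((v t)⁻¹) ^ m) atTop (nhds 0) :=
        tendsto_pow_atTop_nhds_zero_of_lt_one (by positivity) (inv_lt_one_of_one_lt₀ ht)
      rw [← Nat.map_cast_int_atTop, tendsto_map'_iff]
      refine h3.congr fun m => ?_
      simp [Function.comp]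
    exact h2.comp h1
  have hle0 : v (c i₀) ≤ 0 := ge_of_tendsto hlim hbd
  have : 0 < v (c i₀) := v.pos hc₀
  linarith

/-- dominant term, `v t ≠ 1` -/
theorem dominant_of_ne_one {F : Type*} [Field F] (v : AbsoluteValue F ℝ) (t : F) (ht0 : t ≠ 0)
    (ht : v t ≠ 1)
    {J : Type*} [Fintype J] (c : J → F) {ι : Type*} (U : Ultrafilter ι) (n : ι → J → ℤ)
    (hgap : ∀ i i', i ≠ i' → Tendsto (fun k => |n k i - n k i'|) U atTop)
    (hrel : ∀ᶠ k in (U : Filter ι), ∑ i, t ^ (n k i) * c i = 0) : ∀ i, c i = 0 := by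
  rcases lt_or_gt_of_ne ht with h | h
  · refine dominant_of_one_lt v t⁻¹ ?_ c U (fun k i => - n k i) ?_ ?_
    · rw [map_inv₀]
      exact (one_lt_inv₀ (v.pos ht0)).2 h
    · intro i i' hii
      refine (hgap i i' hii).congr fun k => ?_
      rw [← abs_neg]
      congr 1
      ring
    · filter_upwards [hrel] with k hk
      simpa using hk
  · exact dominant_of_one_lt v t h c U n hgap hrel

/-- an element of a number field which is not a root of unity has an absolute value `≠ 1`. -/
theorem exists_absoluteValue {F : Type*} [Field F] [NumberField F] (t : F)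
    (ht : ∀ r : ℕ, 0 < r → t ^ r ≠ 1) : ∃ v : AbsoluteValue F ℝ, v t ≠ 1 := by
  by_cases hint : IsIntegral ℤ t
  · by_contra hcon
    push Not at hcon
    obtain ⟨r, hr, h⟩ := NumberField.Embeddings.pow_eq_one_of_norm_eq_one F ℂ hint (fun φ => by
      simpa using hcon (NumberField.place φ))
    exact ht r hr h
  · by_contra hcon
    push Not at hcon
    apply hint
    have := IsDedekindDomain.HeightOneSpectrum.mem_integers_of_valuation_le_one
      (R := NumberField.RingOfIntegers F) F t (fun v => by
        have h1 := hcon (NumberField.HeightOneSpectrum.adicAbv F v)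
        by_contra h2
        push Not at h2
        have h3 : 1 < NumberField.HeightOneSpectrum.adicAbv F v t := by
          rw [NumberField.HeightOneSpectrum.adicAbv_def]
          have := (WithZeroMulInt.toNNReal_strictMono
            (NumberField.HeightOneSpectrum.one_lt_absNorm_nnreal v)) h2
          simpa using this
        linarith)
    obtain ⟨y, hy⟩ := this
    rw [← hy]
    exact NumberField.RingOfIntegers.isIntegral_coe y

end Crest.Agent.R69.Alg
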