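import Crest.Agent.R69.Alg1

/-!
Row 69 (S0092), node (9b), part 2: the dominant term lemma in an arbitrary field.
-/

set_option autoImplicit false

open Filter Polynomial IntermediateField

namespace Crest.Agent.R69.Alg

/-- polynomials shifted far apart are independent -/
theorem poly_shift_indep {k : Type*} [Field k] {J : Type*} [Fintype J] (P : J → k[X])
    (m : J → ℕ) (D : ℕ) (hD : ∀ i, (P i).natDegree ≤ D)
    (hgap : ∀ i i', i ≠ i' → (D : ℤ) < |(m i : ℤ) - m i'|)
    (hsum : ∑ i, X ^ (m i) * P i = 0) : ∀ i, P i = 0 := by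
  classical
  intro i
  ext d
  rw [coeff_zero]
  by_cases hd : D < d
  · exact coeff_eq_zero_of_natDegree_lt (lt_of_le_of_lt (hD i) hd)
  push Not at hd
  have h := congrArg (fun q => coeff q (m i + d)) hsum
  simp only [finsetSum_coeff, coeff_zero, coeff_X_pow_mul'] at h
  rw [Finset.sum_eq_single i] at h
  · simpa using h
  · intro i' _ hi'
    split_ifs with hle
    · apply coeff_eq_zero_of_natDegree_lt
      refine lt_of_le_of_lt (hD i') ?_
      have hg := hgap i i' hi'.symm
      rcases abs_cases ((m i : ℤ) - m i') with ⟨h1, h2⟩ | ⟨h1, h2⟩ <;> omega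
    · rfl
  · intro hi
    exact absurd (Finset.mem_univ i) hi

/-- transcendental case, coefficients in `k⟮t⟯` -/
theorem dominant_transcendental_aux {k K : Type*} [Field k] [Field K] [Algebra k K] (t : K)
    (ht : Transcendental k t)
    {J : Type*} [Fintype J] (c : J → K) (hc : ∀ i, c i ∈ k⟮t⟯)
    {ι : Type*} (U : Ultrafilter ι) (n : ι → J → ℤ)
    (hgap : ∀ i i', i ≠ i' → Tendsto (fun k => |n k i - n k i'|) U atTop)
    (hrel : ∀ᶠ k in (U : Filter ι), ∑ i, t ^ (n k i) * c i = 0) : ∀ i, c i = 0 := by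
  classical
  have ht0 : t ≠ 0 := by
    rintro rfl
    exact ht (isAlgebraic_zero)
  have hrep : ∀ i, ∃ r s : k[X], aeval t s ≠ 0 ∧ c i = aeval t r / aeval t s := by
    intro i
    obtain ⟨r, s, h⟩ := (IntermediateField.mem_adjoin_simple_iff k (c i)).1 (hc i)
    by_cases hs : aeval t s = 0
    · refine ⟨0, 1, by simp, ?_⟩
      rw [h, hs]
      simp
    · exact ⟨r, s, hs, h⟩
  choose r s hs hrs using hrep
  set Q : k[X] := ∏ i, s i with hQ
  have hQ0 : aeval t Q ≠ 0 := by
    rw [hQ, map_prod]
    exact Finset.prod_ne_zero_iff.2 fun i _ => hs i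
  set P : J → k[X] := fun i => r i * ∏ i' ∈ Finset.univ.erase i, s i' with hP
  have hPc : ∀ i, aeval t (P i) = c i * aeval t Q := by
    intro i
    have e : Q = s i * ∏ i' ∈ Finset.univ.erase i, s i' := by
      rw [hQ, Finset.mul_prod_erase _ _ (Finset.mem_univ i)]
    rw [e, hP, map_mul, map_mul, hrs i]
    field_simp [hs i]
  set D : ℕ := Finset.univ.sup (fun i => (P i).natDegree) with hDdef
  have hD : ∀ i, (P i).natDegree ≤ D := fun i =>
    Finset.le_sup (f := fun i => (P i).natDegree) (Finset.mem_univ i)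
  have hgapD : ∀ᶠ k in (U : Filter ι), ∀ i i', i ≠ i' → (D : ℤ) < |n k i - n k i'| := by
    rw [eventually_all]
    intro i
    rw [eventually_all]
    intro i'
    by_cases h : i = i'
    · exact Eventually.of_forall fun k hne => absurd h hne
    · filter_upwards [(hgap i i' h).eventually_gt_atTop (D : ℤ)] with k hk _
      exact hk
  obtain ⟨k₀, hk1, hk2⟩ := (hrel.and hgapD).exists
  -- normalise exponents
  set N : ℕ := ∑ i, (n k₀ i).natAbs with hN
  have hNi : ∀ i, 0 ≤ n k₀ i + N := by
    intro i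
    have h1 : (n k₀ i).natAbs ≤ N :=
      Finset.single_le_sum (f := fun i => (n k₀ i).natAbs) (fun _ _ => Nat.zero_le _)
        (Finset.mem_univ i)
    omega
  set m : J → ℕ := fun i => (n k₀ i + N).toNat with hm
  have hmi : ∀ i, (m i : ℤ) = n k₀ i + N := fun i => Int.toNat_of_nonneg (hNi i)
  have hsum : aeval t (∑ i, X ^ (m i) * P i) = 0 := by
    rw [map_sum]
    have : ∀ i, aeval t (X ^ (m i) * P i) = (t ^ (N : ℤ) * aeval t Q) * (t ^ (n k₀ i) * c i) := by
      intro i
      rw [map_mul, map_pow, aeval_X, hPc i]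
      have : (t ^ (m i) : K) = t ^ (n k₀ i) * t ^ (N : ℤ) := by
        rw [← zpow_add₀ ht0, ← hmi i, zpow_natCast]
      rw [this]
      ring
    simp_rw [this]
    rw [← Finset.mul_sum, hk1, mul_zero]
  have hz : ∑ i, X ^ (m i) * P i = 0 := by
    have hinj := (transcendental_iff_injective (R := k) (x := t)).1 ht
    exact hinj (by rw [hsum, map_zero])
  have hP0 := poly_shift_indep P m D hD (by
    intro i i' hne
    rw [hmi, hmi]
    have := hk2 i i' hne
    have e : n k₀ i + N - (n k₀ i' + N) = n k₀ i - n k₀ i' := by ring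
    rw [e]
    exact this) hz
  intro i
  have := hPc i
  rw [hP0 i, map_zero] at this
  rcases mul_eq_zero.1 this.symm with h | h
  · exact h
  · exact absurd h hQ0

/-- reduction to coefficients in a subfield containing `t` -/
theorem dominant_reduce {k K : Type*} [Field k] [Field K] [Algebra k K] (t : K)
    {J : Type*} [Fintype J] {ι : Type*} (U : Ultrafilter ι) (n : ι → J → ℤ)
    (H : ∀ c : J → k⟮t⟯, (∀ᶠ k' in (U : Filter ι), ∑ i, (AdjoinSimple.gen k t) ^ (n k' i) * c i = 0) →
      ∀ i, c i = 0)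
    (c : J → K)
    (hrel : ∀ᶠ k in (U : Filter ι), ∑ i, t ^ (n k i) * c i = 0) : ∀ i, c i = 0 := by
  intro i
  rw [← Module.forall_dual_apply_eq_zero_iff k⟮t⟯]
  intro φ
  refine H (fun i => φ (c i)) ?_ i
  filter_upwards [hrel] with k' hk'
  have h1 := congrArg φ hk'
  rw [map_sum, map_zero] at h1
  rw [← h1]
  refine Finset.sum_congr rfl fun i _ => ?_
  have h2 : t ^ (n k' i) * c i = ((AdjoinSimple.gen k t) ^ (n k' i)) • c i := by
    rw [Algebra.smul_def, map_zpow₀, AdjoinSimple.algebraMap_gen]
  rw [h2, map_smul, smul_eq_mul]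

/-- **Dominant term lemma** in an arbitrary field. -/
theorem dominant {K : Type*} [Field K] (t : K) (ht0 : t ≠ 0) (ht : ∀ r : ℕ, 0 < r → t ^ r ≠ 1)
    {J : Type*} [Fintype J] (c : J → K) {ι : Type*} (U : Ultrafilter ι) (n : ι → J → ℤ)
    (hgap : ∀ i i', i ≠ i' → Tendsto (fun k => |n k i - n k i'|) U atTop)
    (hrel : ∀ᶠ k in (U : Filter ι), ∑ i, t ^ (n k i) * c i = 0) : ∀ i, c i = 0 := by
  have htr : ∀ (k : Type) [Field k] [Algebra k K], Transcendental k t → ∀ i, c i = 0 := by
    intro k _ _ htk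
    refine dominant_reduce (k := k) t U n ?_ c hrel
    intro c' hc' i
    have h1 := dominant_transcendental_aux (k := k) t htk (fun i => (c' i : K))
      (fun i => (c' i).2) U n hgap (by
        filter_upwards [hc'] with k' hk'
        have := congrArg (algebraMap k⟮t⟯ K) hk'
        rw [map_sum, map_zero] at this
        rw [← this]
        refine Finset.sum_congr rfl fun i _ => ?_
        rw [map_mul, map_zpow₀, AdjoinSimple.algebraMap_gen]
        rfl) i
    exact Subtype.ext h1
  obtain ⟨p, hp⟩ := CharP.exists K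
  rcases CharP.char_is_prime_or_zero K p with hprime | hzero
  · -- characteristic `p`
    have : Fact p.Prime := ⟨hprime⟩
    let _ : Algebra (ZMod p) K := ZMod.algebra K p
    by_cases halg : IsAlgebraic (ZMod p) t
    · exfalso
      have : FiniteDimensional (ZMod p) (ZMod p)⟮t⟯ :=
        IntermediateField.adjoin.finiteDimensional halg.isIntegral
      have : Finite (ZMod p)⟮t⟯ := Module.finite_of_finite (ZMod p)
      set g : (ZMod p)⟮t⟯ := AdjoinSimple.gen (ZMod p) t with hg
      have hgt : (g : K) = t := AdjoinSimple.coe_gen (ZMod p) t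
      have hg0 : g ≠ 0 := by
        intro h
        apply ht0
        rw [← hgt, h]
        rfl
      obtain ⟨r, hr, h⟩ := isOfFinOrder_iff_pow_eq_one.1 (isOfFinOrder_of_finite (Units.mk0 g hg0))
      apply ht r hr
      have h2 := congrArg (fun u : ((ZMod p)⟮t⟯)ˣ => ((u : (ZMod p)⟮t⟯) : K)) h
      simpa [hgt] using h2
    · exact htr (ZMod p) halg
  · subst hzero
    have : CharZero K := CharP.charP_to_charZero K
    by_cases halg : IsAlgebraic ℚ t
    · refine dominant_reduce (k := ℚ) t U n ?_ c hrel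
      intro c' hc' i
      have : FiniteDimensional ℚ ℚ⟮t⟯ :=
        IntermediateField.adjoin.finiteDimensional halg.isIntegral
      have : NumberField ℚ⟮t⟯ := ⟨⟩
      set g : ℚ⟮t⟯ := AdjoinSimple.gen ℚ t with hg
      have hgt : (g : K) = t := AdjoinSimple.coe_gen ℚ t
      have hg0 : g ≠ 0 := by
        intro h
        apply ht0
        rw [← hgt, h]
        rfl
      obtain ⟨v, hv⟩ := exists_absoluteValue g (by
        intro r hr h
        apply ht r hr
        have h2 := congrArg (fun u : ℚ⟮t⟯ => (u : K)) h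
        simpa [hgt] using h2)
      exact dominant_of_ne_one v g hg0 hv c' U n hgap hc' i
    · exact htr ℚ halg

end Crest.Agent.R69.Alg
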