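import Crest.Agent.R69.Alg2

/-!
Row 69 (S0092), node (9b), part 3: modules over `ℤ[T;T⁻¹]`, and abelian groups with an automorphism.
-/

set_option autoImplicit false

open Filter Polynomial LaurentPolynomial

namespace Crest.Agent.R69.Alg

/-- the multiplicative set generated by the `T ^ r - 1`, `r ≥ 1`. -/
noncomputable def S : Submonoid ℤ[T;T⁻¹] :=
  Submonoid.closure {x | ∃ r : ℕ, 0 < r ∧ x = T (r : ℤ) - 1}

theorem T_sub_one_mem (r : ℕ) (hr : 0 < r) : (T (r : ℤ) - 1 : ℤ[T;T⁻¹]) ∈ S :=
  Submonoid.subset_closure ⟨r, hr, rfl⟩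

theorem map_T {K : Type*} [Field K] (φ : ℤ[T;T⁻¹] →+* K) (n : ℤ) :
    φ (T n) = (φ (T 1)) ^ n := by
  have h1 : ∀ m : ℕ, φ (T (m : ℤ)) = (φ (T 1)) ^ m := by
    intro m
    rw [← map_pow, T_pow]
    simp
  rcases Int.eq_nat_or_neg n with ⟨m, rfl | rfl⟩
  · rw [h1, zpow_natCast]
  · have h2 : φ (T (-(m : ℤ))) * φ (T (m : ℤ)) = 1 := by
      rw [← map_mul, ← T_add]
      simp
    rw [zpow_neg, zpow_natCast, ← h1]
    exact eq_inv_of_mul_eq_one_left h2

/-- a nonzero finite module has a nonzero map to a residue field -/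
theorem exists_residue {A L : Type*} [CommRing A] [AddCommGroup L] [Module A L] [Module.Finite A L]
    [Nontrivial L] : ∃ (I : Ideal A) (_ : I.IsMaximal) (f : L →ₗ[A] A ⧸ I), f ≠ 0 := by
  obtain ⟨P, hP, -⟩ := (IsCoatomic.eq_top_or_exists_le_coatom (⊥ : Submodule A L)).resolve_left
    bot_ne_top
  have hs : IsSimpleModule A (L ⧸ P) := isSimpleModule_iff_isCoatom.2 hP
  obtain ⟨I, hI, ⟨e⟩⟩ := isSimpleModule_iff_quot_maximal.mp hs
  refine ⟨I, hI, e.toLinearMap.comp P.mkQ, ?_⟩
  intro h
  apply hP.1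
  rw [eq_top_iff]
  rintro x -
  have h1 : e (P.mkQ x) = 0 := by
    have := congrArg (fun q : L →ₗ[A] A ⧸ I => q x) h
    simpa using this
  rw [LinearEquiv.map_eq_zero_iff] at h1
  simpa using h1

theorem module_dominant {M : Type*} [AddCommGroup M] [Module ℤ[T;T⁻¹] M]
    {J : Type*} [Fintype J] (χ : J → M) {ι : Type*} (U : Ultrafilter ι) (n : ι → J → ℤ)
    (hgap : ∀ i i', i ≠ i' → Tendsto (fun k => |n k i - n k i'|) U atTop)
    (hrel : ∀ᶠ k in (U : Filter ι), ∑ i, (T (n k i) : ℤ[T;T⁻¹]) • χ i = 0) :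
    ∀ i, ∃ s ∈ S, s • χ i = 0 := by
  classical
  let N : Submodule ℤ[T;T⁻¹] M := Submodule.span _ (Set.range χ)
  have hχN : ∀ i, χ i ∈ N := fun i => Submodule.subset_span ⟨i, rfl⟩
  let χ' : J → N := fun i => ⟨χ i, hχN i⟩
  have hfin : Module.Finite ℤ[T;T⁻¹] N := Module.Finite.span_of_finite _ (Set.finite_range χ)
  let g : N →ₗ[ℤ[T;T⁻¹]] LocalizedModule S N := LocalizedModule.mkLinearMap S N
  have hfin2 : Module.Finite (Localization S) (LocalizedModule S N) :=
    Module.Finite.of_isLocalizedModule S g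
  have htriv : Subsingleton (LocalizedModule S N) := by
    by_contra hns
    rw [not_subsingleton_iff_nontrivial] at hns
    obtain ⟨I, hI, F, hF⟩ := exists_residue (A := Localization S) (L := LocalizedModule S N)
    let _ : Field (Localization S ⧸ I) := Ideal.Quotient.field I
    let φ : ℤ[T;T⁻¹] →+* Localization S ⧸ I :=
      (Ideal.Quotient.mk I).comp (algebraMap ℤ[T;T⁻¹] (Localization S))
    let f : N → Localization S ⧸ I := fun x => F (g x)
    have hfadd : ∀ x y, f (x + y) = f x + f y := by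
      intro x y
      simp [f]
    have hfsmul : ∀ (r : ℤ[T;T⁻¹]) (x : N), f (r • x) = φ r * f x := by
      intro r x
      have e1 : g (r • x) = (algebraMap ℤ[T;T⁻¹] (Localization S) r) • g x := by
        rw [map_smul, algebraMap_smul]
      simp only [f]
      rw [e1, map_smul]
      rfl
    have hf0 : f 0 = 0 := by simp [f]
    have hfsum : ∀ (s : Finset J) (x : J → N), f (∑ i ∈ s, x i) = ∑ i ∈ s, f (x i) := by
      intro s x
      induction s using Finset.induction_on with
      | empty => simpa using hf0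
      | insert a s ha ih => rw [Finset.sum_insert ha, Finset.sum_insert ha, hfadd, ih]
    have ht0 : φ (T 1) ≠ 0 := by
      have hu : IsUnit (φ (T 1)) := (isUnit_T 1).map φ
      exact hu.ne_zero
    have htr : ∀ r : ℕ, 0 < r → (φ (T 1)) ^ r ≠ 1 := by
      intro r hr h
      have hu : IsUnit (φ (T (r : ℤ) - 1)) := by
        have h1 : IsUnit (algebraMap ℤ[T;T⁻¹] (Localization S) (T (r : ℤ) - 1)) :=
          IsLocalization.map_units (Localization S) (⟨_, T_sub_one_mem r hr⟩ : S)
        exact h1.map (Ideal.Quotient.mk I)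
      apply hu.ne_zero
      rw [map_sub, map_one, map_T, zpow_natCast, h, sub_self]
    have hz : ∀ i, f (χ' i) = 0 := by
      refine dominant (φ (T 1)) ht0 htr (fun i => f (χ' i)) U n hgap ?_
      filter_upwards [hrel] with k hk
      have h1 : ∑ i, (T (n k i) : ℤ[T;T⁻¹]) • χ' i = 0 := by
        apply Subtype.ext
        simpa [χ'] using hk
      have h2 := congrArg f h1
      rw [hfsum, hf0] at h2
      rw [← h2]
      refine Finset.sum_congr rfl fun i _ => ?_
      rw [hfsmul, map_T φ (n k i)]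
    -- `f` vanishes on `N`
    have hfN : ∀ x : N, f x = 0 := by
      rintro ⟨x, hx⟩
      induction hx using Submodule.span_induction with
      | mem x hx =>
        obtain ⟨i, rfl⟩ := hx
        exact hz i
      | zero => exact hf0
      | add x y hx hy h1 h2 =>
        have := hfadd ⟨x, hx⟩ ⟨y, hy⟩
        rw [h1, h2, add_zero] at this
        exact this
      | smul a x hx h1 =>
        have := hfsmul a ⟨x, hx⟩
        rw [h1, mul_zero] at this
        exact this
    apply hF
    ext y
    obtain ⟨⟨x, s⟩, rfl⟩ := IsLocalizedModule.mk'_surjective S g y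
    have hsu : IsUnit (algebraMap ℤ[T;T⁻¹] (Localization S) s) :=
      IsLocalization.map_units (Localization S) s
    have h1 : (algebraMap ℤ[T;T⁻¹] (Localization S) s) • (IsLocalizedModule.mk' g x s) = g x := by
      rw [algebraMap_smul]
      exact IsLocalizedModule.mk'_cancel' g x s
    have h2 : (algebraMap ℤ[T;T⁻¹] (Localization S) s) • F (IsLocalizedModule.mk' g x s) = 0 := by
      rw [← map_smul, h1]
      exact hfN x
    have h3 : F (IsLocalizedModule.mk' g x s) = 0 := by
      exact (IsUnit.smul_eq_zero hsu).1 h2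
    exact h3
  intro i
  have h1 : g (χ' i) = 0 := Subsingleton.elim _ _
  obtain ⟨s, hs⟩ := (IsLocalizedModule.eq_zero_iff S g).1 h1
  refine ⟨s, s.2, ?_⟩
  exact congrArg (fun x : N => (x : M)) hs

end Crest.Agent.R69.Alg
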