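import Crest.Agent.R69.Alg4

/-!
Row 69 (S0092), node (9b), part 5: corollaries (no finite orbits, arbitrary filters, additive groups).
-/

set_option autoImplicit false

open Filter

namespace Crest.Agent.R69.Alg

theorem Tors.eq_one {Λ : Type*} [CommGroup Λ] {θ : MulAut Λ}
    (ht : ∀ r : ℕ, 0 < r → ∀ x : Λ, (θ ^ r) x = x → x = 1) {x : Λ} (hx : Tors θ x) : x = 1 := by
  induction hx with
  | one => rfl
  | step χ r hr _ ih => exact ht r hr χ (mul_inv_eq_one.1 ih)

/-- arbitrary filter, relation along a frequently set, multiplicative group -/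
theorem group_dominant_frequently {Λ : Type*} [CommGroup Λ] (θ : MulAut Λ) {J : Type*} [Fintype J]
    (χ : J → Λ) {ι : Type*} (l : Filter ι) (n : ι → J → ℤ)
    (hgap : ∀ i i', i ≠ i' → Tendsto (fun k => |n k i - n k i'|) l atTop)
    (hrel : ∃ᶠ k in l, ∏ i, (θ ^ (n k i)) (χ i) = 1) :
    ∀ i, Tors θ (χ i) := by
  have hne : (l ⊓ 𝓟 {k | ∏ i, (θ ^ (n k i)) (χ i) = 1}).NeBot :=
    frequently_mem_iff_neBot.1 hrel
  have hle := Ultrafilter.of_le (l ⊓ 𝓟 {k | ∏ i, (θ ^ (n k i)) (χ i) = 1})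
  refine group_dominant θ χ (Ultrafilter.of (l ⊓ 𝓟 {k | ∏ i, (θ ^ (n k i)) (χ i) = 1})) n
    (fun i i' h => (hgap i i' h).mono_left (hle.trans inf_le_left)) ?_
  exact (hle.trans inf_le_right) (mem_principal_self _)

theorem no_rel_mul {Λ : Type*} [CommGroup Λ] (θ : MulAut Λ)
    (ht : ∀ r : ℕ, 0 < r → ∀ x : Λ, (θ ^ r) x = x → x = 1) {J : Type*} [Fintype J]
    (χ : J → Λ) {ι : Type*} (l : Filter ι) (n : ι → J → ℤ)
    (hgap : ∀ i i', i ≠ i' → Tendsto (fun k => |n k i - n k i'|) l atTop)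
    (hrel : ∃ᶠ k in l, ∏ i, (θ ^ (n k i)) (χ i) = 1) :
    ∀ i, χ i = 1 := fun i =>
  (group_dominant_frequently θ χ l n hgap hrel i).eq_one ht

/-- additive version (`AddAut N` is an additive group in this Mathlib, so powers are `n • t`) -/
theorem no_rel {N : Type*} [AddCommGroup N] (t : AddAut N)
    (ht : ∀ r : ℕ, 0 < r → ∀ x, (r • t) x = x → x = 0) {J : Type*} [Fintype J]
    (x : J → N) {ι : Type*} (l : Filter ι) (n : ι → J → ℤ)
    (hgap : ∀ i i', i ≠ i' → Tendsto (fun k => |n k i - n k i'|) l atTop)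
    (hrel : ∃ᶠ k in l, ∑ i, ((n k i) • t) (x i) = 0) :
    ∀ i, x i = 0 := by
  set θ : MulAut (Multiplicative N) := (MulAutMultiplicative N).symm (Multiplicative.ofAdd t)
    with hθ
  have hz : ∀ (m : ℤ) (y : N), (θ ^ m) (Multiplicative.ofAdd y) =
      Multiplicative.ofAdd ((m • t) y) := by
    intro m y
    rw [hθ, ← map_zpow, ← ofAdd_zsmul]
    rfl
  have hn : ∀ (m : ℕ) (y : N), (θ ^ m) (Multiplicative.ofAdd y) =
      Multiplicative.ofAdd ((m • t) y) := by
    intro m y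
    rw [hθ, ← map_pow, ← ofAdd_nsmul]
    rfl
  intro i
  refine no_rel_mul θ ?_ (fun i => Multiplicative.ofAdd (x i)) l n hgap ?_ i
  · intro r hr y hy
    exact ht r hr (Multiplicative.toAdd y) ((hn r (Multiplicative.toAdd y)).symm.trans hy)
  · refine hrel.mono fun k hk => ?_
    simp_rw [hz]
    rw [← ofAdd_sum, hk]
    rfl

end Crest.Agent.R69.Alg
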