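import Mathlib

/-! Row 69 (S0092), the design lemma (helper512's note 12066 (I)), Lean by helper227.
If the process `h ∘ S n` is mixing of all orders, then for *arbitrary* bounded functions `G i` on the
ambient system `∫ h · ∏ G i ∘ S (s i)` tends to `0` when all gaps tend to infinity. -/

set_option autoImplicit false

open MeasureTheory Filter Topology Finset

namespace Crest.Agent.R69

/-- separated indices -/
lemma exists_separated {ι O : Type*} [Finite O] {l : Filter ι} {σ : ι → O → ℤ}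
    (hσ : ∀ o o', o ≠ o' → Tendsto (fun k => |σ k o - σ k o'|) l atTop)
    {p : ι → Prop} (hp : ∃ᶠ k in l, p k) (R : ℤ) (r : ℕ) :
    ∃ κ : Fin r → ι, (∀ i, p (κ i)) ∧ ∀ α α' : Fin r → O, α ≠ α' →
      R ≤ |∑ i, σ (κ i) (α i) - ∑ i, σ (κ i) (α' i)| := by
  induction r with
  | zero =>
    exact ⟨Fin.elim0, fun i => i.elim0, fun α α' h => absurd (Subsingleton.elim _ _) h⟩
  | succ r ih =>
    obtain ⟨κ, hκ, hsep⟩ := ih
    obtain ⟨A, hA⟩ : ∃ A : ℤ, ∀ α α' : Fin r → O,
        |∑ i, σ (κ i) (α i) - ∑ i, σ (κ i) (α' i)| ≤ A := by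
      have := (Set.finite_range fun q : (Fin r → O) × (Fin r → O) =>
        |∑ i, σ (κ i) (q.1 i) - ∑ i, σ (κ i) (q.2 i)|).bddAbove
      obtain ⟨A, hA⟩ := this
      exact ⟨A, fun α α' => hA ⟨(α, α'), rfl⟩⟩
    have hev : ∀ᶠ k in l, ∀ o o', o ≠ o' → R + A ≤ |σ k o - σ k o'| := by
      rw [eventually_all]
      intro o
      rw [eventually_all]
      intro o'
      by_cases h : o = o'
      · simp [h]
      · filter_upwards [(hσ o o' h).eventually_ge_atTop (R + A)] with k hk _ using hk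
    obtain ⟨k, hk1, hk2⟩ := (hp.and_eventually hev).exists
    refine ⟨Fin.cons k κ, ?_, ?_⟩
    · intro i
      refine Fin.cases ?_ (fun i => ?_) i
      · simpa using hk1
      · simpa using hκ i
    · intro α α' h
      rw [Fin.sum_univ_succ, Fin.sum_univ_succ]
      simp only [Fin.cons_zero, Fin.cons_succ]
      by_cases h0 : α 0 = α' 0
      · rw [h0]
        have h1 : (fun i : Fin r => α i.succ) ≠ (fun i : Fin r => α' i.succ) := by
          intro h1
          apply h
          funext i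
          exact Fin.cases h0 (fun i => congrFun h1 i) i
        have h2 := hsep _ _ h1
        rwa [add_sub_add_left_eq_sub]
      · have h1 := hk2 _ _ h0
        have h2 := hA (fun i => α i.succ) (fun i => α' i.succ)
        have h3 : σ k (α 0) + ∑ i : Fin r, σ (κ i) (α i.succ) -
            (σ k (α' 0) + ∑ i : Fin r, σ (κ i) (α' i.succ)) =
            (σ k (α 0) - σ k (α' 0)) + (∑ i : Fin r, σ (κ i) (α i.succ) -
              ∑ i : Fin r, σ (κ i) (α' i.succ)) := by ring
        rw [h3]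
        have h4 := abs_sub_abs_le_abs_add (σ k (α 0) - σ k (α' 0))
          (∑ i : Fin r, σ (κ i) (α i.succ) - ∑ i : Fin r, σ (κ i) (α' i.succ))
        linarith

/-- Hoeffding's lemma for a bounded centred complex variable. -/
lemma hoeffding {Ω : Type*} [MeasurableSpace Ω] (ν : Measure Ω) [IsProbabilityMeasure ν]
    {h : Ω → ℂ} (hm : Measurable h) (hb : ∀ x, ‖h x‖ ≤ 1) (hmean : ∫ x, h x ∂ν = 0)
    {g : ℂ} (hg : ‖g‖ ≤ 1) (d : ℝ) :
    ∫ x, Real.exp (d * (g * h x).re) ∂ν ≤ Real.exp (d ^ 2 / 2) := by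
  have hY : ∀ x, |(g * h x).re| ≤ 1 := by
    intro x
    calc |(g * h x).re| ≤ ‖g * h x‖ := Complex.abs_re_le_norm _
      _ = ‖g‖ * ‖h x‖ := norm_mul _ _
      _ ≤ 1 * 1 := mul_le_mul hg (hb x) (norm_nonneg _) zero_le_one
      _ = 1 := one_mul 1
  have hint : Integrable h ν := Integrable.of_bound hm.aestronglyMeasurable 1 (ae_of_all _ hb)
  have hYint : Integrable (fun x => (g * h x).re) ν := (hint.const_mul g).re
  have hYmean : ∫ x, (g * h x).re ∂ν = 0 := by
    have h1 : ∫ x, (g * h x).re ∂ν = (∫ x, g * h x ∂ν).re := by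
      have := integral_re (𝕜 := ℂ) (hint.const_mul g)
      simpa using this
    rw [h1, integral_const_mul, hmean]
    simp
  have hpt : ∀ x, Real.exp (d * (g * h x).re) ≤
      Real.cosh d + (g * h x).re * Real.sinh d := by
    intro x
    set y := (g * h x).re
    have hy := abs_le.mp (hY x)
    have ha0 : 0 ≤ (1 - y) / 2 := by linarith [hy.2]
    have hb0 : 0 ≤ (1 + y) / 2 := by linarith [hy.1]
    have hab : (1 - y) / 2 + (1 + y) / 2 = 1 := by ring
    have hc := convexOn_exp.2 (Set.mem_univ (-d)) (Set.mem_univ d) ha0 hb0 hab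
    simp only [smul_eq_mul] at hc
    have h1 : (1 - y) / 2 * -d + (1 + y) / 2 * d = d * y := by ring
    rw [h1] at hc
    refine hc.trans (le_of_eq ?_)
    rw [Real.cosh_eq, Real.sinh_eq]
    ring
  have hexpint : Integrable (fun x => Real.exp (d * (g * h x).re)) ν := by
    refine Integrable.of_bound (C := Real.exp |d|) ?_ (ae_of_all _ fun x => ?_)
    · refine (Measurable.aestronglyMeasurable ?_)
      exact Real.measurable_exp.comp ((Complex.measurable_re.comp (hm.const_mul g)).const_mul d)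
    · rw [Real.norm_eq_abs, abs_of_pos (Real.exp_pos _)]
      apply Real.exp_le_exp.mpr
      calc d * (g * h x).re ≤ |d * (g * h x).re| := le_abs_self _
        _ = |d| * |(g * h x).re| := abs_mul _ _
        _ ≤ |d| * 1 := mul_le_mul_of_nonneg_left (hY x) (abs_nonneg d)
        _ = |d| := mul_one _
  calc ∫ x, Real.exp (d * (g * h x).re) ∂ν
      ≤ ∫ x, (Real.cosh d + (g * h x).re * Real.sinh d) ∂ν :=
        integral_mono hexpint ((integrable_const _).add (hYint.mul_const _)) hpt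
    _ = Real.cosh d := by
        rw [integral_add (integrable_const _) (hYint.mul_const _), integral_mul_const, hYmean]
        simp
    _ ≤ Real.exp (d ^ 2 / 2) := Real.cosh_le_exp_half_sq d

section
variable {Ω : Type*} [MeasurableSpace Ω]

/-- mixing of all orders of the process `h ∘ S n`, in uniform form. -/
def AllMix (ν : Measure Ω) (S : ℤ → Ω → Ω) (h : Ω → ℂ) : Prop :=
  ∀ (N : ℕ) (φ : Fin N → ℂ → ℝ), (∀ i, Continuous (φ i)) → ∀ ε > (0 : ℝ), ∃ R : ℤ,
    ∀ t : Fin N → ℤ, (∀ i i', i ≠ i' → R ≤ |t i - t i'|) →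
      |∫ x, ∏ i, φ i (h (S (t i) x)) ∂ν - ∏ i, ∫ x, φ i (h x) ∂ν| < ε

lemma AllMix.fintype {ν : Measure Ω} {S : ℤ → Ω → Ω} {h : Ω → ℂ} (H : AllMix ν S h)
    {τ : Type*} [Fintype τ] (φ : τ → ℂ → ℝ) (hφ : ∀ i, Continuous (φ i)) {ε : ℝ} (hε : 0 < ε) :
    ∃ R : ℤ, ∀ t : τ → ℤ, (∀ i i', i ≠ i' → R ≤ |t i - t i'|) →
      |∫ x, ∏ i, φ i (h (S (t i) x)) ∂ν - ∏ i, ∫ x, φ i (h x) ∂ν| < ε := by
  let e := Fintype.equivFin τ
  obtain ⟨R, hR⟩ := H (Fintype.card τ) (fun i => φ (e.symm i)) (fun i => hφ _) ε hε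
  refine ⟨R, fun t ht => ?_⟩
  have := hR (fun i => t (e.symm i)) (fun i i' hi => ht _ _ (by simpa using hi))
  have h1 : ∀ x, ∏ i, φ (e.symm i) (h (S (t (e.symm i)) x)) = ∏ i, φ i (h (S (t i) x)) :=
    fun x => e.symm.prod_comp fun i => φ i (h (S (t i) x))
  have h2 : ∏ i, ∫ x, φ (e.symm i) (h x) ∂ν = ∏ i, ∫ x, φ i (h x) ∂ν :=
    e.symm.prod_comp fun i => ∫ x, φ i (h x) ∂ν
  simp_rw [h1] at this
  rwa [h2] at this

/-- index set: pairs `(l₀, a)` with `a l₀ = 0`. -/
abbrev Tau (r J : ℕ) : Type := {p : Fin r × (Fin r → Fin (J + 1)) // p.2 p.1 = 0}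

lemma card_tau (r J : ℕ) : r * (J + 1) ^ r ≤ Fintype.card (Tau r J) * (J + 1) := by
  have h1 : Fintype.card (Fin r × (Fin r → Fin (J + 1))) ≤
      Fintype.card (Tau r J × Fin (J + 1)) := by
    refine Fintype.card_le_of_injective
      (fun p => (⟨(p.1, Function.update p.2 p.1 0), by simp⟩, p.2 p.1)) ?_
    rintro ⟨l, a⟩ ⟨l', a'⟩ h
    simp only [Prod.mk.injEq, Subtype.mk.injEq] at h
    obtain ⟨⟨h1, h2⟩, h3⟩ := h
    subst h1
    congr 1
    funext i
    by_cases hi : i = l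
    · subst hi; exact h3
    · have := congrFun h2 i
      simpa [Function.update_of_ne hi] using this
  simpa [Fintype.card_prod, Fintype.card_fun] using h1

/-- the site labels of an index -/
def al {r J : ℕ} (p : Tau r J) : Fin r → Option (Fin (J + 1)) :=
  Function.update (fun l => some (p.1.2 l)) p.1.1 none

/-- fill the empty slot -/
def fill {r J : ℕ} (p : Tau r J) (i : Fin (J + 1)) : Fin r → Fin (J + 1) :=
  Function.update p.1.2 p.1.1 i

lemma al_injective {r J : ℕ} : Function.Injective (al (r := r) (J := J)) := by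
  rintro ⟨⟨l, a⟩, ha⟩ ⟨⟨l', a'⟩, ha'⟩ h
  simp only at ha ha'
  have hl : l = l' := by
    by_contra hne
    have := congrFun h l
    simp [al, Function.update_of_ne hne] at this
  subst hl
  have haa : a = a' := by
    funext i
    by_cases hi : i = l
    · subst hi; rw [ha, ha']
    · have := congrFun h i
      simpa [al, Function.update_of_ne hi] using this
  subst haa
  rfl

/-- extended sites -/
def ext {J : ℕ} (s : Fin (J + 1) → ℤ) : Option (Fin (J + 1)) → ℤ := fun o => o.elim 0 s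

lemma time_fill {r J : ℕ} (s : Fin r → Fin (J + 1) → ℤ) (p : Tau r J) (i : Fin (J + 1)) :
    ∑ l, s l (fill p i l) = s p.1.1 i + ∑ l, ext (s l) (al p l) := by
  have h : ∀ l, s l (fill p i l) = ext (s l) (al p l) + if l = p.1.1 then s p.1.1 i else 0 := by
    intro l
    by_cases hl : l = p.1.1
    · subst hl; simp [fill, al, ext]
    · simp [fill, al, ext, hl]
  simp_rw [h, Finset.sum_add_distrib]
  simp [add_comm]

lemma exists_large (K J : ℕ) {d : ℝ} (hd : 0 < d) : ∃ r : ℕ,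
    ((J + 1 : ℝ)) ^ 2 * Real.log K + (J + 1) * Real.log 2 < r * (d ^ 2 / 2) := by
  obtain ⟨r, hr⟩ := exists_nat_gt
    ((((J + 1 : ℝ)) ^ 2 * Real.log K + (J + 1) * Real.log 2) / (d ^ 2 / 2))
  refine ⟨r, ?_⟩
  have : 0 < d ^ 2 / 2 := by positivity
  rwa [div_lt_iff₀ this] at hr

/-- the finite-valued case -/
theorem design_fin (ν : Measure Ω) [IsProbabilityMeasure ν] (S : ℤ → Ω → Ω)
    (hS : ∀ n, MeasurePreserving (S n) ν ν) (hadd : ∀ a b x, S (a + b) x = S a (S b x))
    {h : Ω → ℂ} (hm : Measurable h) (hb : ∀ x, ‖h x‖ ≤ 1) (hmean : ∫ x, h x ∂ν = 0)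
    (hmix : AllMix ν S h) {ι : Type*} {l : Filter ι} {J : ℕ} {s : ι → Fin (J + 1) → ℤ}
    (hs : ∀ i, Tendsto (fun k => |s k i|) l atTop)
    (hss : ∀ i i', i ≠ i' → Tendsto (fun k => |s k i - s k i'|) l atTop)
    (V : Finset ℂ) (hV : ∀ v ∈ V, ‖v‖ ≤ 1) {G : Fin (J + 1) → Ω → ℂ}
    (hG : ∀ i, Measurable (G i)) (hGV : ∀ i x, G i x ∈ V)
    {c : ℂ} (hc : ‖c‖ ≤ 1) {d : ℝ} (hd : 0 < d) :
    ¬ ∃ᶠ k in l, d ≤ (c * ∫ x, h x * ∏ i, G i (S (s k i) x) ∂ν).re := by
  classical
  intro hfreq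
  obtain ⟨r, hr⟩ := exists_large V.card J hd
  -- the words
  let W : Type := (Fin r → Fin (J + 1)) → Fin (J + 1) → V
  let gω : W → Tau r J → ℂ := fun ω p => ∏ i, (ω (fill p i) i : ℂ)
  have hgω : ∀ ω p, ‖gω ω p‖ ≤ 1 := by
    intro ω p
    simp only [gω, norm_prod]
    exact Finset.prod_le_one (fun i _ => norm_nonneg _) fun i _ => hV _ (ω (fill p i) i).2
  have hcg : ∀ ω p, ‖c * gω ω p‖ ≤ 1 := by
    intro ω p
    rw [norm_mul]
    exact mul_le_one₀ hc (norm_nonneg _) (hgω ω p)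
  let φ : W → Tau r J → ℂ → ℝ := fun ω p z => Real.exp (d * (c * gω ω p * z).re)
  have hφc : ∀ ω p, Continuous (φ ω p) := by
    intro ω p
    simp only [φ]
    fun_prop
  -- a common separation
  obtain ⟨R, hR⟩ : ∃ R : ℤ, ∀ ω : W, ∀ t : Tau r J → ℤ, (∀ i i', i ≠ i' → R ≤ |t i - t i'|) →
      |∫ x, ∏ i, φ ω i (h (S (t i) x)) ∂ν - ∏ i, ∫ x, φ ω i (h x) ∂ν| < 1 := by
    choose Rf hRf using fun ω : W => hmix.fintype (φ ω) (hφc ω) one_pos
    obtain ⟨R, hR⟩ := (Set.finite_range Rf).bddAbove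
    exact ⟨R, fun ω t ht => hRf ω t fun i i' hi => (hR ⟨ω, rfl⟩).trans (ht i i' hi)⟩
  -- the indices
  have hσ : ∀ o o' : Option (Fin (J + 1)), o ≠ o' →
      Tendsto (fun k => |ext (s k) o - ext (s k) o'|) l atTop := by
    intro o o' hne
    match o, o' with
    | none, none => exact absurd rfl hne
    | none, some i => simpa [ext, abs_neg] using hs i
    | some i, none => simpa [ext] using hs i
    | some i, some i' =>
      have : i ≠ i' := fun h => hne (by rw [h])
      simpa [ext] using hss i i' this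
  obtain ⟨κ, hκ, hsep⟩ := exists_separated hσ hfreq R r
  let tm : Tau r J → ℤ := fun p => ∑ l, ext (s (κ l)) (al p l)
  have htm : ∀ p p', p ≠ p' → R ≤ |tm p - tm p'| := fun p p' hp =>
    hsep _ _ fun h => hp (al_injective h)
  have hmeas : ∀ n, Measurable (S n) := fun n => (hS n).measurable
  -- the actual word
  let ωx : Ω → W := fun x b i => ⟨G i (S (∑ l, s (κ l) (b l)) x), hGV i _⟩
  have hgx : ∀ p x, gω (ωx x) p = ∏ i, G i (S (s (κ p.1.1) i) (S (tm p) x)) := by
    intro p x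
    simp only [gω, ωx]
    refine Finset.prod_congr rfl fun i _ => ?_
    rw [time_fill (fun l => s (κ l)) p i, hadd]
  have hgxm : ∀ p, Measurable fun x => gω (ωx x) p := by
    intro p
    simp_rw [hgx]
    exact Finset.measurable_prod _ fun i _ => (hG i).comp ((hmeas _).comp (hmeas _))
  -- the random sum
  let Y : Tau r J → Ω → ℝ := fun p x => (c * gω (ωx x) p * h (S (tm p) x)).re
  have hYm : ∀ p, Measurable (Y p) := fun p =>
    Complex.measurable_re.comp (((hgxm p).const_mul c).mul (hm.comp (hmeas _)))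
  have hYb : ∀ p x, |Y p x| ≤ 1 := by
    intro p x
    calc |Y p x| ≤ ‖c * gω (ωx x) p * h (S (tm p) x)‖ := Complex.abs_re_le_norm _
      _ = ‖c * gω (ωx x) p‖ * ‖h (S (tm p) x)‖ := norm_mul _ _
      _ ≤ 1 := mul_le_one₀ (hcg _ _) (norm_nonneg _) (hb _)
  have hYi : ∀ p, Integrable (Y p) ν := fun p =>
    Integrable.of_bound (hYm p).aestronglyMeasurable 1 (ae_of_all _ (hYb p))
  have hYd : ∀ p, d ≤ ∫ x, Y p x ∂ν := by
    intro p
    let F : Ω → ℂ := fun x => h x * ∏ i, G i (S (s (κ p.1.1) i) x)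
    have hFm : Measurable F :=
      hm.mul (Finset.measurable_prod _ fun i _ => (hG i).comp (hmeas _))
    have hFb : ∀ x, ‖F x‖ ≤ 1 := by
      intro x
      simp only [F, norm_mul, norm_prod]
      refine mul_le_one₀ (hb x) (Finset.prod_nonneg fun i _ => norm_nonneg _) ?_
      exact Finset.prod_le_one (fun i _ => norm_nonneg _) fun i _ => hV _ (hGV i _)
    have hFi : Integrable F ν := Integrable.of_bound hFm.aestronglyMeasurable 1 (ae_of_all _ hFb)
    have e1 : ∀ x, Y p x = (c * F (S (tm p) x)).re := by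
      intro x
      simp only [Y, F, hgx]
      congr 1
      ring
    have e2 : ∫ x, Y p x ∂ν = (∫ x, c * F (S (tm p) x) ∂ν).re := by
      simp_rw [e1]
      have hi : Integrable (fun x => c * F (S (tm p) x)) ν :=
        ((hS (tm p)).integrable_comp_of_integrable hFi).const_mul c
      have := integral_re (𝕜 := ℂ) hi
      simpa using this
    have e3 : ∫ x, F (S (tm p) x) ∂ν = ∫ x, F x ∂ν := by
      have := integral_map (μ := ν) (hmeas (tm p)).aemeasurable (f := F) hFm.aestronglyMeasurable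
      rw [(hS (tm p)).map_eq] at this
      exact this.symm
    rw [e2, integral_const_mul, e3]
    exact hκ p.1.1
  let n : ℕ := Fintype.card (Tau r J)
  let Sx : Ω → ℝ := fun x => ∑ p, Y p x
  have hSi : Integrable Sx ν := integrable_finsetSum _ fun p _ => hYi p
  have hSd : n * d ≤ ∫ x, Sx x ∂ν := by
    simp only [Sx]
    rw [integral_finsetSum _ fun p _ => hYi p]
    calc (n : ℝ) * d = ∑ _p : Tau r J, d := by simp [n]
      _ ≤ _ := Finset.sum_le_sum fun p _ => hYd p
  -- exponential moments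
  have hprod : ∀ ω : W, ∀ x, ∏ p, φ ω p (h (S (tm p) x)) =
      Real.exp (d * ∑ p, (c * gω ω p * h (S (tm p) x)).re) := by
    intro ω x
    simp only [φ]
    rw [← Real.exp_sum, Finset.mul_sum]
  have hprodm : ∀ ω : W, Measurable fun x => ∏ p, φ ω p (h (S (tm p) x)) := by
    intro ω
    exact Finset.measurable_prod _ fun p _ => (hφc ω p).measurable.comp (hm.comp (hmeas _))
  have hprodb : ∀ ω : W, ∀ x, ‖∏ p, φ ω p (h (S (tm p) x))‖ ≤ Real.exp (d * n) := by
    intro ω x
    rw [hprod, Real.norm_eq_abs, abs_of_pos (Real.exp_pos _)]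
    apply Real.exp_le_exp.mpr
    refine mul_le_mul_of_nonneg_left ?_ hd.le
    calc ∑ p, (c * gω ω p * h (S (tm p) x)).re ≤ ∑ _p : Tau r J, (1 : ℝ) := by
          refine Finset.sum_le_sum fun p _ => ?_
          calc (c * gω ω p * h (S (tm p) x)).re ≤ ‖c * gω ω p * h (S (tm p) x)‖ :=
                (le_abs_self _).trans (Complex.abs_re_le_norm _)
            _ = ‖c * gω ω p‖ * ‖h (S (tm p) x)‖ := norm_mul _ _
            _ ≤ 1 := mul_le_one₀ (hcg _ _) (norm_nonneg _) (hb _)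
      _ = n := by simp [n]
  have hprodi : ∀ ω : W, Integrable (fun x => ∏ p, φ ω p (h (S (tm p) x))) ν := fun ω =>
    Integrable.of_bound (hprodm ω).aestronglyMeasurable _ (ae_of_all _ (hprodb ω))
  have hE : ∀ ω : W, ∫ x, ∏ p, φ ω p (h (S (tm p) x)) ∂ν ≤ 2 * Real.exp (d ^ 2 / 2 * n) := by
    intro ω
    have h1 := (abs_lt.mp (hR ω tm htm)).2
    have h2 : ∏ p, ∫ x, φ ω p (h x) ∂ν ≤ Real.exp (d ^ 2 / 2 * n) := by
      calc ∏ p, ∫ x, φ ω p (h x) ∂ν ≤ ∏ _p : Tau r J, Real.exp (d ^ 2 / 2) := by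
            refine Finset.prod_le_prod (fun p _ => integral_nonneg fun x => (Real.exp_pos _).le)
              fun p _ => ?_
            exact hoeffding ν hm hb hmean (hcg ω p) d
        _ = Real.exp (d ^ 2 / 2 * n) := by
            rw [Finset.prod_const, ← Real.exp_nat_mul]
            congr 1
            simp only [Finset.card_univ, n]
            ring
    have h3 : (1 : ℝ) ≤ Real.exp (d ^ 2 / 2 * n) := Real.one_le_exp (by positivity)
    linarith
  -- the main inequality
  have hW : 0 < Fintype.card W := by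
    obtain ⟨x⟩ : Nonempty Ω := nonempty_of_isProbabilityMeasure ν
    exact Fintype.card_pos_iff.mpr ⟨ωx x⟩
  have hWr : (0 : ℝ) < Fintype.card W := by exact_mod_cast hW
  set L : ℝ := Real.log (Fintype.card W) + Real.log 2 + d ^ 2 / 2 * n with hL
  have hexpL : Real.exp L = Fintype.card W * (2 * Real.exp (d ^ 2 / 2 * n)) := by
    rw [hL, Real.exp_add, Real.exp_add, Real.exp_log hWr, Real.exp_log two_pos]
    ring
  have hpt : ∀ x, Real.exp (d * Sx x) ≤ ∑ ω : W, ∏ p, φ ω p (h (S (tm p) x)) := by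
    intro x
    have h1 : Real.exp (d * Sx x) = ∏ p, φ (ωx x) p (h (S (tm p) x)) := by
      rw [hprod]
    rw [h1]
    exact Finset.single_le_sum (f := fun ω : W => ∏ p, φ ω p (h (S (tm p) x)))
      (fun ω _ => Finset.prod_nonneg fun p _ => (Real.exp_pos _).le) (Finset.mem_univ (ωx x))
  have hsumi : Integrable (fun x => ∑ ω : W, ∏ p, φ ω p (h (S (tm p) x))) ν :=
    integrable_finsetSum _ fun ω _ => hprodi ω
  have hsumE : ∫ x, ∑ ω : W, ∏ p, φ ω p (h (S (tm p) x)) ∂ν ≤ Real.exp L := by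
    rw [integral_finsetSum _ fun ω _ => hprodi ω, hexpL]
    calc ∑ ω : W, ∫ x, ∏ p, φ ω p (h (S (tm p) x)) ∂ν
        ≤ ∑ _ω : W, 2 * Real.exp (d ^ 2 / 2 * n) := Finset.sum_le_sum fun ω _ => hE ω
      _ = _ := by rw [Finset.sum_const, Finset.card_univ, nsmul_eq_mul]
  have hmain : d * ∫ x, Sx x ∂ν ≤ L := by
    have h1 : ∀ x, 1 + (d * Sx x - L) ≤ (∑ ω : W, ∏ p, φ ω p (h (S (tm p) x))) * Real.exp (-L) := by
      intro x
      calc 1 + (d * Sx x - L) ≤ Real.exp (d * Sx x - L) := by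
            have := Real.add_one_le_exp (d * Sx x - L)
            linarith
        _ = Real.exp (d * Sx x) * Real.exp (-L) := by rw [← Real.exp_add]; ring_nf
        _ ≤ _ := mul_le_mul_of_nonneg_right (hpt x) (Real.exp_pos _).le
    have h2 : ∫ x, (1 + (d * Sx x - L)) ∂ν ≤
        ∫ x, (∑ ω : W, ∏ p, φ ω p (h (S (tm p) x))) * Real.exp (-L) ∂ν :=
      integral_mono ((integrable_const _).add ((hSi.const_mul d).sub (integrable_const _)))
        (hsumi.mul_const _) h1
    have h4 : ∫ x, (1 + (d * Sx x - L)) ∂ν = 1 + (d * ∫ x, Sx x ∂ν - L) := by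
      rw [integral_add (f := fun _ => (1 : ℝ)) (g := fun x => d * Sx x - L) (integrable_const _)
        ((hSi.const_mul d).sub (integrable_const _)), integral_sub (f := fun x => d * Sx x)
        (g := fun _ => L) (hSi.const_mul d) (integrable_const _), integral_const_mul]
      simp
    rw [integral_mul_const, h4] at h2
    have h3 : (∫ x, ∑ ω : W, ∏ p, φ ω p (h (S (tm p) x)) ∂ν) * Real.exp (-L) ≤ 1 := by
      calc _ ≤ Real.exp L * Real.exp (-L) :=
            mul_le_mul_of_nonneg_right hsumE (Real.exp_pos _).le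
        _ = 1 := by rw [← Real.exp_add]; simp
    linarith
  have hfin : (n : ℝ) * (d ^ 2 / 2) ≤ Real.log (Fintype.card W) + Real.log 2 := by
    have h1 := mul_le_mul_of_nonneg_left hSd hd.le
    have h2 : d * (n * d) ≤ L := h1.trans hmain
    rw [hL] at h2
    nlinarith
  -- counting
  have hcardW : Real.log (Fintype.card W) =
      ((J + 1 : ℝ)) ^ r * ((J + 1) * Real.log V.card) := by
    have : Fintype.card W = (V.card ^ (J + 1)) ^ ((J + 1) ^ r) := by
      simp only [W, Fintype.card_fun, Fintype.card_fin, Fintype.card_coe]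
    rw [this]
    push_cast
    rw [Real.log_pow, Real.log_pow]
    push_cast
    ring
  have hcn : (r : ℝ) * ((J + 1 : ℝ)) ^ r ≤ n * (J + 1) := by
    have := card_tau r J
    exact_mod_cast this
  have hVlog : 0 ≤ Real.log V.card := Real.log_natCast_nonneg _
  have hJ : (1 : ℝ) ≤ ((J + 1 : ℝ)) ^ r := one_le_pow₀ (by
    have : (0 : ℝ) ≤ J := Nat.cast_nonneg J
    linarith)
  have hJ0 : (0 : ℝ) < (J + 1 : ℝ) := by positivity
  have hd2 : 0 < d ^ 2 / 2 := by positivity
  have k1 : (r : ℝ) * ((J + 1 : ℝ)) ^ r * (d ^ 2 / 2) ≤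
      (J + 1) * (((J + 1 : ℝ)) ^ r * ((J + 1) * Real.log V.card) + Real.log 2) := by
    calc (r : ℝ) * ((J + 1 : ℝ)) ^ r * (d ^ 2 / 2) ≤ (n * (J + 1)) * (d ^ 2 / 2) :=
          mul_le_mul_of_nonneg_right hcn hd2.le
      _ = (J + 1) * (n * (d ^ 2 / 2)) := by ring
      _ ≤ (J + 1) * (Real.log (Fintype.card W) + Real.log 2) :=
          mul_le_mul_of_nonneg_left hfin hJ0.le
      _ = _ := by rw [hcardW]
  have k2 : (J + 1) * (((J + 1 : ℝ)) ^ r * ((J + 1) * Real.log V.card) + Real.log 2) ≤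
      ((J + 1 : ℝ)) ^ r * (((J + 1 : ℝ)) ^ 2 * Real.log V.card + (J + 1) * Real.log 2) := by
    have hl2 : 0 < Real.log 2 := Real.log_pos one_lt_two
    have : (J + 1 : ℝ) * Real.log 2 ≤ ((J + 1 : ℝ)) ^ r * ((J + 1) * Real.log 2) :=
      le_mul_of_one_le_left (by positivity) hJ
    nlinarith
  have k3 : ((J + 1 : ℝ)) ^ r * (((J + 1 : ℝ)) ^ 2 * Real.log V.card + (J + 1) * Real.log 2) <
      ((J + 1 : ℝ)) ^ r * (r * (d ^ 2 / 2)) :=
    mul_lt_mul_of_pos_left hr (by positivity)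
  have k4 : ((J + 1 : ℝ)) ^ r * (r * (d ^ 2 / 2)) = (r : ℝ) * ((J + 1 : ℝ)) ^ r * (d ^ 2 / 2) := by
    ring
  linarith

/-- a measurable finite-valued approximation of the identity of the unit disc. -/
lemma exists_pick {δ : ℝ} (hδ : 0 < δ) : ∃ (V : Finset ℂ) (pick : ℂ → ℂ), Measurable pick ∧
    (∀ v ∈ V, ‖v‖ ≤ 1) ∧ (∀ z, pick z ∈ V) ∧ ∀ z, ‖z‖ ≤ 1 → ‖pick z - z‖ < δ := by
  classical
  have : Nonempty (Metric.closedBall (0 : ℂ) 1) := ⟨⟨0, by simp⟩⟩
  let e : ℕ → ℂ := fun n => (TopologicalSpace.denseSeq (Metric.closedBall (0 : ℂ) 1) n : ℂ)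
  have he : ∀ n, ‖e n‖ ≤ 1 := by
    intro n
    have h := (TopologicalSpace.denseSeq (Metric.closedBall (0 : ℂ) 1) n).2
    rwa [mem_closedBall_zero_iff] at h
  have hcov : Metric.closedBall (0 : ℂ) 1 ⊆ ⋃ n, Metric.ball (e n) δ := by
    intro z hz
    have hd := TopologicalSpace.denseRange_denseSeq (Metric.closedBall (0 : ℂ) 1)
    obtain ⟨n, hn⟩ := hd.exists_dist_lt ⟨z, hz⟩ hδ
    rw [Set.mem_iUnion]
    exact ⟨n, hn⟩
  obtain ⟨t, ht⟩ := (isCompact_closedBall (0 : ℂ) 1).elim_finite_subcover _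
    (fun n => Metric.isOpen_ball) hcov
  let N := t.sup id
  refine ⟨(Finset.range (N + 1)).image e, SimpleFunc.nearestPt e N,
    (SimpleFunc.nearestPt e N).measurable, ?_, ?_, ?_⟩
  · intro v hv
    obtain ⟨n, _, rfl⟩ := Finset.mem_image.mp hv
    exact he n
  · intro z
    refine Finset.mem_image.mpr ⟨SimpleFunc.nearestPtInd e N z, ?_, rfl⟩
    rw [Finset.mem_range]
    exact Nat.lt_succ_of_le (SimpleFunc.nearestPtInd_le e N z)
  · intro z hz
    have hz' : z ∈ Metric.closedBall (0 : ℂ) 1 := by simpa using hz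
    obtain ⟨n, hn⟩ := Set.mem_iUnion.mp (ht hz')
    obtain ⟨hnt, hn⟩ := Set.mem_iUnion.mp hn
    have hnN : n ≤ N := Finset.le_sup (f := id) hnt
    have h1 := SimpleFunc.edist_nearestPt_le e z hnN
    have h2 : edist (e n) z < ENNReal.ofReal δ := by
      rw [edist_dist]
      exact (ENNReal.ofReal_lt_ofReal_iff hδ).mpr (by
        rw [dist_comm]; exact Metric.mem_ball.mp hn)
    have h3 := h1.trans_lt h2
    rw [edist_dist] at h3
    have h4 := (ENNReal.ofReal_lt_ofReal_iff hδ).mp h3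
    rwa [dist_eq_norm] at h4

lemma norm_prod_sub_prod_le' {κ : Type*} (t : Finset κ) (a b : κ → ℂ) (ha : ∀ i ∈ t, ‖a i‖ ≤ 1)
    (hb : ∀ i ∈ t, ‖b i‖ ≤ 1) : ‖∏ i ∈ t, a i - ∏ i ∈ t, b i‖ ≤ ∑ i ∈ t, ‖a i - b i‖ := by
  classical
  induction t using Finset.induction_on with
  | empty => simp
  | insert i t hi ih =>
    rw [Finset.prod_insert hi, Finset.prod_insert hi, Finset.sum_insert hi]
    have ih' := ih (fun i' h' => ha i' (Finset.mem_insert_of_mem h'))
      (fun i' h' => hb i' (Finset.mem_insert_of_mem h'))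
    have h1 : a i * ∏ i ∈ t, a i - b i * ∏ i ∈ t, b i =
        (a i - b i) * ∏ i ∈ t, a i + b i * (∏ i ∈ t, a i - ∏ i ∈ t, b i) := by ring
    rw [h1]
    refine (norm_add_le _ _).trans (add_le_add ?_ ?_)
    · rw [norm_mul, norm_prod]
      exact mul_le_of_le_one_right (norm_nonneg _) (Finset.prod_le_one
        (fun _ _ => norm_nonneg _) fun i' h' => ha i' (Finset.mem_insert_of_mem h'))
    · rw [norm_mul]
      exact (mul_le_of_le_one_left (norm_nonneg _) (hb i (Finset.mem_insert_self _ _))).trans ih'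

/-- **Design lemma.** -/
theorem design (ν : Measure Ω) [IsProbabilityMeasure ν] (S : ℤ → Ω → Ω)
    (hS : ∀ n, MeasurePreserving (S n) ν ν) (hadd : ∀ a b x, S (a + b) x = S a (S b x))
    {h : Ω → ℂ} (hm : Measurable h) (hb : ∀ x, ‖h x‖ ≤ 1) (hmean : ∫ x, h x ∂ν = 0)
    (hmix : AllMix ν S h) {ι : Type*} {l : Filter ι} {j : ℕ} {s : ι → Fin j → ℤ}
    (hs : ∀ i, Tendsto (fun k => |s k i|) l atTop)
    (hss : ∀ i i', i ≠ i' → Tendsto (fun k => |s k i - s k i'|) l atTop)
    {G : Fin j → Ω → ℂ} (hG : ∀ i, Measurable (G i)) (hG1 : ∀ i x, ‖G i x‖ ≤ 1) :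
    Tendsto (fun k => ∫ x, h x * ∏ i, G i (S (s k i) x) ∂ν) l (𝓝 0) := by
  classical
  obtain _ | J := j
  · simp only [Finset.univ_eq_empty, Finset.prod_empty, mul_one, hmean]
    exact tendsto_const_nhds
  rw [Metric.tendsto_nhds]
  intro ε hε
  by_contra hcon
  rw [Filter.not_eventually] at hcon
  have hJ : (0 : ℝ) < 4 * (J + 1 : ℝ) := by positivity
  set δ : ℝ := ε / (4 * (J + 1 : ℝ)) with hδ
  have hδ0 : 0 < δ := by positivity
  obtain ⟨V, pick, hpm, hV, hpV, hp⟩ := exists_pick hδ0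
  have hmeas : ∀ n, Measurable (S n) := fun n => (hS n).measurable
  let G' : Fin (J + 1) → Ω → ℂ := fun i x => pick (G i x)
  have hG'm : ∀ i, Measurable (G' i) := fun i => hpm.comp (hG i)
  have hG'V : ∀ i x, G' i x ∈ V := fun i x => hpV _
  have hG'1 : ∀ i x, ‖G' i x‖ ≤ 1 := fun i x => hV _ (hG'V i x)
  let I : ι → ℂ := fun k => ∫ x, h x * ∏ i, G i (S (s k i) x) ∂ν
  let I' : ι → ℂ := fun k => ∫ x, h x * ∏ i, G' i (S (s k i) x) ∂ν
  have hclose : ∀ k, ‖I k - I' k‖ ≤ ε / 4 := by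
    intro k
    have i1 : Integrable (fun x => h x * ∏ i, G i (S (s k i) x)) ν := by
      refine Integrable.of_bound (C := 1) (Measurable.aestronglyMeasurable ?_)
        (ae_of_all _ fun x => ?_)
      · exact hm.mul (Finset.measurable_prod _ fun i _ => (hG i).comp (hmeas _))
      · rw [norm_mul, norm_prod]
        exact mul_le_one₀ (hb x) (Finset.prod_nonneg fun _ _ => norm_nonneg _)
          (Finset.prod_le_one (fun _ _ => norm_nonneg _) fun i _ => hG1 i _)
    have i2 : Integrable (fun x => h x * ∏ i, G' i (S (s k i) x)) ν := by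
      refine Integrable.of_bound (C := 1) (Measurable.aestronglyMeasurable ?_)
        (ae_of_all _ fun x => ?_)
      · exact hm.mul (Finset.measurable_prod _ fun i _ => (hG'm i).comp (hmeas _))
      · rw [norm_mul, norm_prod]
        exact mul_le_one₀ (hb x) (Finset.prod_nonneg fun _ _ => norm_nonneg _)
          (Finset.prod_le_one (fun _ _ => norm_nonneg _) fun i _ => hG'1 i _)
    have h1 : I k - I' k = ∫ x, (h x * ∏ i, G i (S (s k i) x) -
        h x * ∏ i, G' i (S (s k i) x)) ∂ν := (integral_sub i1 i2).symm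
    rw [h1]
    have h2 : ∀ x, ‖h x * ∏ i, G i (S (s k i) x) - h x * ∏ i, G' i (S (s k i) x)‖ ≤ ε / 4 := by
      intro x
      rw [← mul_sub, norm_mul]
      calc ‖h x‖ * ‖∏ i, G i (S (s k i) x) - ∏ i, G' i (S (s k i) x)‖
          ≤ 1 * ∑ i, ‖G i (S (s k i) x) - G' i (S (s k i) x)‖ :=
            mul_le_mul (hb x) (norm_prod_sub_prod_le' _ _ _ (fun i _ => hG1 i _)
              fun i _ => hG'1 i _) (norm_nonneg _) zero_le_one
        _ ≤ 1 * ∑ _i : Fin (J + 1), δ := by
            refine mul_le_mul_of_nonneg_left (Finset.sum_le_sum fun i _ => ?_) zero_le_one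
            rw [norm_sub_rev]
            exact (hp _ (hG1 i _)).le
        _ = ε / 4 := by
            rw [Finset.sum_const, Finset.card_univ, Fintype.card_fin, nsmul_eq_mul, hδ]
            push_cast
            field_simp
    have h3 := norm_integral_le_of_norm_le_const (μ := ν) (ae_of_all _ h2)
    simpa using h3
  have hfin : ∀ c : ℂ, ‖c‖ ≤ 1 → ¬ ∃ᶠ k in l, ε / 4 ≤ (c * I' k).re := fun c hc =>
    design_fin ν S hS hadd hm hb hmean hmix hs hss V hV hG'm hG'V hc (by positivity)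
  have hfreq : ∃ᶠ k in l, ((ε / 4 ≤ ((1 : ℂ) * I' k).re ∨ ε / 4 ≤ ((-1 : ℂ) * I' k).re) ∨
      (ε / 4 ≤ (Complex.I * I' k).re ∨ ε / 4 ≤ ((-Complex.I) * I' k).re)) := by
    refine hcon.mono fun k hk => ?_
    rw [dist_zero_right, not_lt] at hk
    have h1 : ε - ε / 4 ≤ ‖I' k‖ := by
      have h2 := norm_sub_norm_le (I k) (I' k)
      have h3 := hclose k
      have h4 : ε ≤ ‖I k‖ := hk
      linarith
    have h2 := Complex.norm_le_abs_re_add_abs_im (I' k)
    by_cases h3 : ε / 4 ≤ |(I' k).re|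
    · left
      rcases le_total 0 (I' k).re with h4 | h4
      · left; rw [abs_of_nonneg h4] at h3; simpa using h3
      · right; rw [abs_of_nonpos h4] at h3; simpa using h3
    · right
      have h5 : ε / 4 ≤ |(I' k).im| := by
        push Not at h3
        linarith
      rcases le_total 0 (I' k).im with h4 | h4
      · right; rw [abs_of_nonneg h4] at h5; simpa using h5
      · left; rw [abs_of_nonpos h4] at h5; simpa using h5
  rw [Filter.frequently_or_distrib, Filter.frequently_or_distrib,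
    Filter.frequently_or_distrib] at hfreq
  rcases hfreq with (h | h) | (h | h)
  · exact hfin 1 (by simp) h
  · exact hfin (-1) (by simp) h
  · exact hfin Complex.I (by simp) h
  · exact hfin (-Complex.I) (by simp) h

end

end Crest.Agent.R69
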